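import Vale.Agent.Lib.P047.Defs

namespace Vale.Agent.Lib.P047

open Finset

lemma sgn_mul_self (b : Bool) : sgn b * sgn b = 1 := by
  cases b <;> simp [sgn]

lemma sgn_not (b : Bool) : sgn (!b) = - sgn b := by
  cases b <;> simp [sgn]

lemma chi_empty {n : ℕ} (x : Fin n → Bool) : chi ∅ x = 1 := by simp [chi]

lemma chi_mul {n : ℕ} (S T : Finset (Fin n)) (x : Fin n → Bool) :
    chi S x * chi T x = chi (symmDiff S T) x := by
  classical
  unfold chi
  have h1 : ∀ U : Finset (Fin n), ∏ i ∈ U, sgn (x i) = ∏ i, (if i ∈ U then sgn (x i) else 1) := by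
    intro U
    rw [Finset.prod_ite_mem, Finset.univ_inter]
  rw [h1 S, h1 T, h1 (symmDiff S T), ← Finset.prod_mul_distrib]
  refine Finset.prod_congr rfl fun i _ => ?_
  by_cases hS : i ∈ S <;> by_cases hT : i ∈ T <;> simp [Finset.mem_symmDiff, hS, hT, sgn_mul_self]

/-- flip coordinate `i` of a point -/
def flip {n : ℕ} (i : Fin n) (x : Fin n → Bool) : Fin n → Bool := Function.update x i (!(x i))

lemma flip_flip {n : ℕ} (i : Fin n) (x : Fin n → Bool) : flip i (flip i x) = x := by
  funext j
  by_cases h : j = i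
  · subst h; simp [flip]
  · simp [flip, Function.update_of_ne h]

lemma flip_ne {n : ℕ} (i : Fin n) (x : Fin n → Bool) : flip i x ≠ x := by
  intro h
  have := congrFun h i
  simp [flip] at this

lemma chi_flip {n : ℕ} (S : Finset (Fin n)) (i : Fin n) (x : Fin n → Bool) :
    chi S (flip i x) = if i ∈ S then - chi S x else chi S x := by
  classical
  unfold chi
  by_cases hi : i ∈ S
  · rw [if_pos hi]
    rw [← Finset.mul_prod_erase S _ hi, ← Finset.mul_prod_erase S (fun j => sgn (x j)) hi]
    have h1 : sgn (flip i x i) = - sgn (x i) := by simp [flip, sgn_not]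
    have h2 : ∏ j ∈ S.erase i, sgn (flip i x j) = ∏ j ∈ S.erase i, sgn (x j) := by
      refine Finset.prod_congr rfl fun j hj => ?_
      have : j ≠ i := Finset.ne_of_mem_erase hj
      simp [flip, Function.update_of_ne this]
    rw [h1, h2]; ring
  · rw [if_neg hi]
    refine Finset.prod_congr rfl fun j hj => ?_
    have : j ≠ i := fun h => hi (h ▸ hj)
    simp [flip, Function.update_of_ne this]

lemma sum_chi {n : ℕ} (S : Finset (Fin n)) :
    ∑ x : Fin n → Bool, chi S x = if S = ∅ then (2 : ℝ) ^ n else 0 := by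
  classical
  by_cases hS : S = ∅
  · subst hS
    simp [chi_empty]
  · rw [if_neg hS]
    obtain ⟨i, hi⟩ := Finset.nonempty_iff_ne_empty.mpr hS
    have key : ∑ x : Fin n → Bool, chi S x = - ∑ x : Fin n → Bool, chi S x := by
      calc ∑ x : Fin n → Bool, chi S x
          = ∑ x : Fin n → Bool, chi S (flip i x) := by
            refine (Fintype.sum_equiv ⟨flip i, flip i, flip_flip i, flip_flip i⟩ _ _ ?_).symm
            intro x; rfl
        _ = ∑ x : Fin n → Bool, - chi S x := by
            refine Finset.sum_congr rfl fun x _ => ?_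
            rw [chi_flip, if_pos hi]
        _ = - ∑ x : Fin n → Bool, chi S x := by rw [Finset.sum_neg_distrib]
    linarith

lemma sum_chi_mul_chi {n : ℕ} (S T : Finset (Fin n)) :
    ∑ x : Fin n → Bool, chi S x * chi T x = if S = T then (2 : ℝ) ^ n else 0 := by
  classical
  simp_rw [chi_mul]
  rw [sum_chi]
  have : symmDiff S T = ∅ ↔ S = T := by
    rw [← Finset.bot_eq_empty]; exact symmDiff_eq_bot
  simp [this]

/-- Fourier coefficients of a linear combination of characters. -/
lemma fourier_sum_chi {n : ℕ} (c : Finset (Fin n) → ℝ) (T : Finset (Fin n)) :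
    fourier (fun x => ∑ S : Finset (Fin n), c S * chi S x) T = c T := by
  classical
  unfold fourier
  have h : ∑ x : Fin n → Bool, (∑ S : Finset (Fin n), c S * chi S x) * chi T x
      = ∑ S : Finset (Fin n), c S * ∑ x : Fin n → Bool, chi S x * chi T x := by
    simp_rw [Finset.sum_mul, Finset.mul_sum]
    rw [Finset.sum_comm]
    refine Finset.sum_congr rfl fun S _ => Finset.sum_congr rfl fun x _ => by ring
  rw [h]
  simp_rw [sum_chi_mul_chi]
  simp

end Vale.Agent.Lib.P047
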