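import Vale.Agent.Lib.P047.Inversion

namespace Vale.Agent.Lib.P047

open Finset

/-- the bit of a sign: negative numbers go to `true` -/
noncomputable def bitOf (r : ℝ) : Bool := decide (r < 0)

lemma sgn_bitOf {r : ℝ} (h : r = 1 ∨ r = -1) : sgn (bitOf r) = r := by
  rcases h with h | h <;> simp [bitOf, sgn, h]

/-- the `i`-th block of a point of the cube of dimension `n * m` -/
def blk {n m : ℕ} (x : Fin (n * m) → Bool) (i : Fin n) : Fin m → Bool :=
  fun j => x (finProdFinEquiv (i, j))

/-- the composition `f (g (x^1), ..., g (x^n))` on `n` disjoint blocks of `m` variables -/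
noncomputable def comp {n m : ℕ} (f : (Fin n → Bool) → ℝ) (g : (Fin m → Bool) → ℝ) :
    (Fin (n * m) → Bool) → ℝ :=
  fun x => f (fun i => bitOf (g (blk x i)))

/-- the part of a set of coordinates lying in the `i`-th block -/
def slice {n m : ℕ} (U : Finset (Fin (n * m))) (i : Fin n) : Finset (Fin m) :=
  Finset.univ.filter (fun j => finProdFinEquiv (i, j) ∈ U)

lemma comp_eq_sum {n m : ℕ} (f : (Fin n → Bool) → ℝ) (g : (Fin m → Bool) → ℝ)
    (hg : IsBoolean g) (x : Fin (n * m) → Bool) :
    comp f g x = ∑ T : Finset (Fin n), fourier f T * ∏ i ∈ T, g (blk x i) := by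
  unfold comp
  rw [fourier_inversion f]
  refine Finset.sum_congr rfl fun T _ => ?_
  congr 1
  unfold chi
  exact Finset.prod_congr rfl fun i _ => sgn_bitOf (hg _)

lemma chi_blocks {n m : ℕ} (U : Finset (Fin (n * m))) (x : Fin (n * m) → Bool) :
    chi U x = ∏ i : Fin n, chi (slice U i) (blk x i) := by
  classical
  unfold chi slice blk
  have h1 : ∏ u ∈ U, sgn (x u) = ∏ u : Fin (n * m), (if u ∈ U then sgn (x u) else 1) := by
    rw [Finset.prod_ite_mem, Finset.univ_inter]
  rw [h1, ← finProdFinEquiv.prod_comp, Fintype.prod_prod_type]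
  refine Finset.prod_congr rfl fun i _ => ?_
  rw [Finset.prod_filter]

lemma sum_prod_blocks {n m : ℕ} (φ : Fin n → (Fin m → Bool) → ℝ) :
    ∑ x : Fin (n * m) → Bool, ∏ i, φ i (blk x i) = ∏ i, ∑ y : Fin m → Bool, φ i y := by
  classical
  let E : (Fin (n * m) → Bool) ≃ (Fin n → Fin m → Bool) :=
    (Equiv.arrowCongr finProdFinEquiv.symm (Equiv.refl Bool)).trans
      (Equiv.curry (Fin n) (Fin m) Bool)
  have hE : ∀ (x : Fin (n * m) → Bool) (i : Fin n), E x i = blk x i := by
    intro x i
    funext j
    simp [E, blk, Equiv.arrowCongr]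
  rw [Finset.prod_univ_sum, Fintype.piFinset_univ, ← E.sum_comp]
  refine Finset.sum_congr rfl fun x _ => ?_
  refine Finset.prod_congr rfl fun i _ => ?_
  rw [hE]

lemma fourier_comp {n m : ℕ} (f : (Fin n → Bool) → ℝ) (g : (Fin m → Bool) → ℝ)
    (hg : IsBoolean g) (U : Finset (Fin (n * m))) :
    fourier (comp f g) U = ∑ T : Finset (Fin n), fourier f T *
      ∏ i : Fin n, (if i ∈ T then fourier g (slice U i) else if slice U i = ∅ then 1 else 0) := by
  classical
  have key : ∀ T : Finset (Fin n),
      (∑ x : Fin (n * m) → Bool, (∏ i ∈ T, g (blk x i)) * chi U x) / 2 ^ (n * m)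
        = ∏ i : Fin n, (if i ∈ T then fourier g (slice U i)
            else if slice U i = ∅ then 1 else 0) := by
    intro T
    have h1 : ∀ x : Fin (n * m) → Bool, (∏ i ∈ T, g (blk x i)) * chi U x
        = ∏ i : Fin n, ((if i ∈ T then g (blk x i) else 1) * chi (slice U i) (blk x i)) := by
      intro x
      rw [chi_blocks, Finset.prod_mul_distrib, Finset.prod_ite_mem, Finset.univ_inter]
    simp_rw [h1]
    rw [sum_prod_blocks (fun i y => (if i ∈ T then g y else 1) * chi (slice U i) y)]
    have h2 : (2 : ℝ) ^ (n * m) = ∏ _i : Fin n, (2 : ℝ) ^ m := by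
      rw [Finset.prod_const, Finset.card_univ, Fintype.card_fin, ← pow_mul, mul_comm]
    rw [h2, ← Finset.prod_div_distrib]
    refine Finset.prod_congr rfl fun i _ => ?_
    by_cases hi : i ∈ T
    · simp only [hi, if_true]
      rfl
    · simp only [hi, if_false, one_mul]
      rw [sum_chi]
      have h3 : (2 : ℝ) ^ m ≠ 0 := by positivity
      by_cases hs : slice U i = ∅
      · simp [hs, h3]
      · simp [hs]
  show (∑ x : Fin (n * m) → Bool, comp f g x * chi U x) / 2 ^ (n * m) = _
  simp_rw [comp_eq_sum f g hg, Finset.sum_mul]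
  rw [Finset.sum_comm, Finset.sum_div]
  refine Finset.sum_congr rfl fun T _ => ?_
  rw [← key T, ← mul_div_assoc, Finset.mul_sum]
  congr 1
  refine Finset.sum_congr rfl fun x _ => ?_
  ring

lemma slice_empty {n m : ℕ} (i : Fin n) : slice (∅ : Finset (Fin (n * m))) i = ∅ := by
  simp [slice]

lemma slice_singleton {n m : ℕ} (i₀ : Fin n) (j₀ : Fin m) (i : Fin n) :
    slice ({finProdFinEquiv (i₀, j₀)} : Finset (Fin (n * m))) i = if i = i₀ then {j₀} else ∅ := by
  ext j
  simp only [slice, Finset.mem_filter, Finset.mem_univ, true_and, Finset.mem_singleton,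
    EmbeddingLike.apply_eq_iff_eq, Prod.mk.injEq]
  split_ifs with h <;> simp [h]

lemma isBoolean_comp {n m : ℕ} (f : (Fin n → Bool) → ℝ) (g : (Fin m → Bool) → ℝ)
    (hf : IsBoolean f) : IsBoolean (comp f g) := fun _ => hf _

lemma fourier_comp_empty {n m : ℕ} (f : (Fin n → Bool) → ℝ) (g : (Fin m → Bool) → ℝ)
    (hg : IsBoolean g) (hg0 : fourier g ∅ = 0) :
    fourier (comp f g) ∅ = fourier f ∅ := by
  classical
  rw [fourier_comp f g hg, Finset.sum_eq_single ∅]
  · simp [slice_empty]
  · intro T _ hT
    obtain ⟨i, hi⟩ := Finset.nonempty_iff_ne_empty.mpr hT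
    have h0 : (∏ j : Fin n, (if j ∈ T then fourier g (slice (∅ : Finset (Fin (n * m))) j)
        else if slice (∅ : Finset (Fin (n * m))) j = ∅ then 1 else 0)) = 0 := by
      apply Finset.prod_eq_zero (Finset.mem_univ i)
      simp [hi, slice_empty, hg0]
    rw [h0, mul_zero]
  · intro h
    exact absurd (Finset.mem_univ _) h

lemma fourier_comp_singleton {n m : ℕ} (f : (Fin n → Bool) → ℝ) (g : (Fin m → Bool) → ℝ)
    (hg : IsBoolean g) (hg0 : fourier g ∅ = 0) (i₀ : Fin n) (j₀ : Fin m) :
    fourier (comp f g) {finProdFinEquiv (i₀, j₀)} = fourier f {i₀} * fourier g {j₀} := by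
  classical
  rw [fourier_comp f g hg, Finset.sum_eq_single {i₀}]
  · congr 1
    rw [Finset.prod_eq_single i₀]
    · simp [slice_singleton]
    · intro i _ hi
      simp [slice_singleton, hi]
    · intro h
      exact absurd (Finset.mem_univ _) h
  · intro T _ hT
    have h0 : (∏ i : Fin n, (if i ∈ T
        then fourier g (slice ({finProdFinEquiv (i₀, j₀)} : Finset (Fin (n * m))) i)
        else if slice ({finProdFinEquiv (i₀, j₀)} : Finset (Fin (n * m))) i = ∅ then 1 else 0))
        = 0 := by
      by_cases h0 : i₀ ∈ T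
      · have hex : ∃ i ∈ T, i ≠ i₀ := by
          by_contra hcon
          push Not at hcon
          apply hT
          ext i
          simp only [Finset.mem_singleton]
          constructor
          · exact hcon i
          · rintro rfl
            exact h0
        obtain ⟨i, hiT, hne⟩ := hex
        apply Finset.prod_eq_zero (Finset.mem_univ i)
        simp [hiT, slice_singleton, hne, hg0]
      · apply Finset.prod_eq_zero (Finset.mem_univ i₀)
        simp [h0, slice_singleton]
    rw [h0, mul_zero]
  · intro h
    exact absurd (Finset.mem_univ _) h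

lemma levelOne_comp {n m : ℕ} (f : (Fin n → Bool) → ℝ) (g : (Fin m → Bool) → ℝ)
    (hg : IsBoolean g) (hg0 : fourier g ∅ = 0) :
    levelOne (comp f g) = levelOne f * levelOne g := by
  unfold levelOne
  rw [← finProdFinEquiv.sum_comp, Fintype.sum_prod_type, Finset.sum_mul_sum]
  refine Finset.sum_congr rfl fun i _ => Finset.sum_congr rfl fun j _ => ?_
  exact fourier_comp_singleton f g hg hg0 i j

lemma card_eq_sum_slice {n m : ℕ} (U : Finset (Fin (n * m))) :
    U.card = ∑ i : Fin n, (slice U i).card := by
  classical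
  have h1 : ∀ i : Fin n, (slice U i).card
      = ∑ j : Fin m, (if finProdFinEquiv (i, j) ∈ U then 1 else 0) := by
    intro i
    unfold slice
    rw [Finset.card_filter]
  simp_rw [h1]
  rw [← Fintype.sum_prod_type (f := fun p : Fin n × Fin m => if finProdFinEquiv p ∈ U then 1 else 0),
    finProdFinEquiv.sum_comp (fun u => if u ∈ U then 1 else 0)]
  simp

lemma degLE_comp {n m a b : ℕ} (f : (Fin n → Bool) → ℝ) (g : (Fin m → Bool) → ℝ)
    (hg : IsBoolean g) (hfa : DegLE f a) (hgb : DegLE g b) : DegLE (comp f g) (a * b) := by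
  classical
  intro U hU
  rw [fourier_comp f g hg]
  refine Finset.sum_eq_zero fun T _ => ?_
  by_cases hT : a < T.card
  · rw [hfa T hT, zero_mul]
  · push Not at hT
    have h0 : (∏ i : Fin n, (if i ∈ T then fourier g (slice U i)
        else if slice U i = ∅ then 1 else 0)) = 0 := by
      by_contra hne
      have hall : ∀ i : Fin n, (if i ∈ T then fourier g (slice U i)
          else if slice U i = ∅ then (1 : ℝ) else 0) ≠ 0 := fun i =>
        (Finset.prod_ne_zero_iff.mp hne) i (Finset.mem_univ i)
      have hle : ∀ i : Fin n, (slice U i).card ≤ if i ∈ T then b else 0 := by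
        intro i
        have hi0 := hall i
        by_cases hi : i ∈ T
        · simp only [hi, if_true] at hi0 ⊢
          by_contra hc
          push Not at hc
          exact hi0 (hgb _ hc)
        · simp only [hi, if_false] at hi0 ⊢
          by_cases hs : slice U i = ∅
          · simp [hs]
          · simp [hs] at hi0
      have hcard : U.card ≤ a * b := by
        rw [card_eq_sum_slice U]
        calc ∑ i : Fin n, (slice U i).card
            ≤ ∑ i : Fin n, (if i ∈ T then b else 0) := Finset.sum_le_sum fun i _ => hle i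
          _ = T.card * b := by
              rw [Finset.sum_ite_mem, Finset.univ_inter, Finset.sum_const, smul_eq_mul]
          _ ≤ a * b := Nat.mul_le_mul_right b hT
      omega
    rw [h0, mul_zero]

/-- Composition on disjoint blocks: from Boolean `f` of degree at most `a` on `n` variables and
Boolean `g` of degree at most `b` with mean zero on `m` variables, a Boolean function on `n * m`
variables of degree at most `a * b`, with the same mean as `f`, whose level-one sum is the
product of the level-one sums. -/
theorem exists_comp {n m a b : ℕ} (f : (Fin n → Bool) → ℝ) (g : (Fin m → Bool) → ℝ)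
    (hf : IsBoolean f) (hg : IsBoolean g) (hfa : DegLE f a) (hgb : DegLE g b)
    (hg0 : fourier g ∅ = 0) :
    ∃ h : (Fin (n * m) → Bool) → ℝ, IsBoolean h ∧ DegLE h (a * b) ∧ fourier h ∅ = fourier f ∅
      ∧ levelOne h = levelOne f * levelOne g :=
  ⟨comp f g, isBoolean_comp f g hf, degLE_comp f g hg hfa hgb, fourier_comp_empty f g hg hg0,
    levelOne_comp f g hg hg0⟩

end Vale.Agent.Lib.P047
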