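import Mathlib

namespace Vale.Agent.Lib.P047

open Finset

/-- The sign of a bit: `false` is the value `1` and `true` is the value `-1`.
A point of the cube `{-1,1}^n` is encoded as `x : Fin n → Bool`, its `i`-th coordinate being `sgn (x i)`. -/
def sgn (b : Bool) : ℝ := if b then -1 else 1

/-- The character `χ_S(x) = ∏_{i ∈ S} x_i`. -/
def chi {n : ℕ} (S : Finset (Fin n)) (x : Fin n → Bool) : ℝ := ∏ i ∈ S, sgn (x i)

/-- The Fourier coefficient `f^(S) = E[f(X) ∏_{i ∈ S} X_i]`, `X` uniform on the cube. -/
noncomputable def fourier {n : ℕ} (f : (Fin n → Bool) → ℝ) (S : Finset (Fin n)) : ℝ :=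
  (∑ x : Fin n → Bool, f x * chi S x) / 2 ^ n

/-- `f` has degree at most `d`: every Fourier coefficient on a set of more than `d` elements vanishes. -/
def DegLE {n : ℕ} (f : (Fin n → Bool) → ℝ) (d : ℕ) : Prop :=
  ∀ S : Finset (Fin n), d < S.card → fourier f S = 0

/-- `f` is Boolean: it takes values in `{-1, 1}`. -/
def IsBoolean {n : ℕ} (f : (Fin n → Bool) → ℝ) : Prop := ∀ x, f x = 1 ∨ f x = -1

/-- The sum of the level-one Fourier coefficients `∑_i f^({i})`. -/
noncomputable def levelOne {n : ℕ} (f : (Fin n → Bool) → ℝ) : ℝ := ∑ i : Fin n, fourier f {i}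

open Classical in
/-- The sensitivity of `f` at the point `x`: the number of coordinates `i` such that flipping
the `i`-th coordinate of `x` changes the value of `f`. -/
noncomputable def sens {n : ℕ} (f : (Fin n → Bool) → ℝ) (x : Fin n → Bool) : ℕ :=
  ((Finset.univ : Finset (Fin n)).filter
    (fun i => f (Function.update x i (!(x i))) ≠ f x)).card

end Vale.Agent.Lib.P047
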