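import Vale.Agent.Lib.P047.Table

namespace Vale.Agent.Lib.P047

open Tr

/-- The truth table of a function on ten variables: binary digit number `k` of this number is `1` exactly when the function takes the value `-1` at the point number `k`. -/
def tblFive : ℕ := 134824241843359591980231481360428966014629637241990808815843306803531246100304594390002262215445099419004983578520024087633315621279357954409470207224500138451648969615995254457781365569686907847639425244644951970961514651643911903679022523544906115032922275489048807740590099850762481018271167929081812516866

theorem tblFive_a : (perfect 10 (build 10 tblFive) && allPM (build 10 tblFive)) = true := by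
  decide +kernel

theorem tblFive_b :
    (perfect 10 (wht (build 10 tblFive)) && degOK 5 (wht (build 10 tblFive)) 0) = true := by
  decide +kernel

theorem tblFive_c : lvl 10 (wht (build 10 tblFive)) = 2176 := by
  decide +kernel

theorem tblFive_d : get (wht (build 10 tblFive)) (List.replicate 10 false) = 0 := by
  decide +kernel

theorem tblFive_e :
    get (wht (build 10 tblFive)) (List.ofFn fun i : Fin 10 => Nat.testBit 976 i.val) ≠ 0 := by
  decide +kernel

theorem tblFive_f :
    4 < (Finset.univ.filter fun i : Fin 10 => Nat.testBit 976 i.val = true).card := by
  decide +kernel

end Vale.Agent.Lib.P047
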