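import Vale.Agent.Lib.P047.Table

namespace Vale.Agent.Lib.P047

open Tr

/-- The truth table of a function on twelve variables: binary digit number `k` of this number is `1` exactly when the function takes the value `-1` at the point number `k`. -/
def tblSeven : ℕ := 522194440706572542874594936950223760587888898484882682763669687628735655179575114472920301895109181442199877258165193621380398796756148944152112500773908756135365466346445197401263341647650964965327096001600341238787521959682210506632269456398694552274599711775039727263218916261410709032176647647997136360318897279488713780777728566573816421017775907400454502080198125159891895063716866407113230450644065514855417321064558816586593164216137145975892092704822649526876815164306253550558563082937024448580279635234731555686979162714889270212886519211812506746845335767051724852615370392531332379967788910937594291053575518678263608316765770736698391134716134622210906518041639892735660909763088153783148893493016382106581357881167432822999257740271790857915533379065794642002458482743212729523431394624807773684746775954762539005971196489528611235712901660710329353262428650649001533318220300769298512277637206994058068164831666902120305989338945163206101899364428136771665746820216620093523081958107848705697218966443256087727408014300423298487300544122507007964502596833361276213673166754013395798472469953854823193412713171186396257837921363087940566614216529111899956838162960989878720023035670765704617969473890688085509883822081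

theorem tblSeven_a : (perfect 12 (build 12 tblSeven) && allPM (build 12 tblSeven)) = true := by
  decide +kernel

theorem tblSeven_b :
    (perfect 12 (wht (build 12 tblSeven)) && degOK 7 (wht (build 12 tblSeven)) 0) = true := by
  decide +kernel

theorem tblSeven_c : lvl 12 (wht (build 12 tblSeven)) = 9984 := by
  decide +kernel

theorem tblSeven_d : get (wht (build 12 tblSeven)) (List.replicate 12 false) = 0 := by
  decide +kernel

theorem tblSeven_e :
    get (wht (build 12 tblSeven)) (List.ofFn fun i : Fin 12 => Nat.testBit 4064 i.val) ≠ 0 := by
  decide +kernel

theorem tblSeven_f :
    6 < (Finset.univ.filter fun i : Fin 12 => Nat.testBit 4064 i.val = true).card := by
  decide +kernel

end Vale.Agent.Lib.P047
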