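import Vale.Agent.Lib.P047.Twist

namespace Vale.Agent.Lib.P047

open Finset

lemma neg_top {n : ℕ} : neg (top n) = bot n := by
  funext i; simp [neg, top, bot]

/-- Degree at most four, value `1` at `(1,...,1)` and `-1` at `(-1,...,-1)`: the level-one sum is at most `3/2`. -/
theorem levelOne_le_of_poles {n : ℕ} (f : (Fin n → Bool) → ℝ) (hb : IsBoolean f) (hf : DegLE f 4)
    (h1 : f (fun _ => false) = 1) (h2 : f (fun _ => true) = -1) : levelOne f ≤ 3 / 2 := by
  have h := signed_levelOne_four f hb hf (top n)
  rw [neg_top] at h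
  have e : ∑ i : Fin n, sgn (top n i) * fourier f {i} = levelOne f := by
    unfold levelOne
    refine Finset.sum_congr rfl fun i _ => ?_
    simp [top, sgn]
  rw [e] at h
  have h1' : f (top n) = 1 := h1
  have h2' : f (bot n) = -1 := h2
  rw [h1', h2'] at h
  have p1 : (0 : ℝ) ≤ (sens f (top n) : ℝ) := Nat.cast_nonneg _
  have p2 : (0 : ℝ) ≤ (sens f (bot n) : ℝ) := Nat.cast_nonneg _
  linarith

/-- Degree at most four and sensitivity at most seven everywhere: the sum of the absolute values
of the level-one coefficients is at most `2`. -/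
theorem abs_levelOne_le_two {n : ℕ} (f : (Fin n → Bool) → ℝ) (hb : IsBoolean f) (hf : DegLE f 4)
    (hs : ∀ x, sens f x ≤ 7) : ∑ i : Fin n, |fourier f {i}| ≤ 2 := by
  classical
  let y : Fin n → Bool := fun i => decide (fourier f {i} < 0)
  have h := signed_levelOne_four f hb hf y
  have e : ∑ i : Fin n, sgn (y i) * fourier f {i} = ∑ i : Fin n, |fourier f {i}| := by
    refine Finset.sum_congr rfl fun i _ => ?_
    by_cases hneg : fourier f {i} < 0
    · have : y i = true := by simp [y, hneg]
      rw [this, abs_of_neg hneg]; simp [sgn]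
    · have : y i = false := by simp [y, hneg]
      rw [this, abs_of_nonneg (not_lt.mp hneg)]; simp [sgn]
  rw [e] at h
  have s1 : (sens f y : ℝ) ≤ 7 := by exact_mod_cast hs y
  have s2 : (sens f (neg y) : ℝ) ≤ 7 := by exact_mod_cast hs (neg y)
  have p1 : (0 : ℝ) ≤ (sens f y : ℝ) := Nat.cast_nonneg _
  have p2 : (0 : ℝ) ≤ (sens f (neg y) : ℝ) := Nat.cast_nonneg _
  rcases hb y with a | a <;> rcases hb (neg y) with b | b <;> rw [a, b] at h <;> linarith

end Vale.Agent.Lib.P047

namespace Vale.Agent.Lib.P047

open Finset

lemma neg_neg_pt {n : ℕ} (y : Fin n → Bool) : neg (neg y) = y := by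
  funext i; simp [neg]

lemma signed_le_abs {n : ℕ} (f : (Fin n → Bool) → ℝ) (y : Fin n → Bool) :
    ∑ i : Fin n, sgn (y i) * fourier f {i} ≤ ∑ i : Fin n, |fourier f {i}| := by
  refine Finset.sum_le_sum fun i _ => ?_
  cases h : y i
  · simp [sgn]; exact le_abs_self _
  · simp [sgn]; exact neg_le_abs _

/-- For degree at most four, the square-root bound `∑ |f^(i)| ≤ 2` fails exactly when there is
an antipodal pair with a large sensitivity imbalance. -/
theorem abs_levelOne_le_two_iff {n : ℕ} (f : (Fin n → Bool) → ℝ) (hb : IsBoolean f) (hf : DegLE f 4) :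
    (∑ i : Fin n, |fourier f {i}| ≤ 2) ↔
      ¬ ∃ y : Fin n → Bool,
        (f y = f (fun i => !(y i)) ∧ sens f y + 9 ≤ sens f (fun i => !(y i))) ∨
        (f y = -1 ∧ f (fun i => !(y i)) = 1 ∧ 15 ≤ sens f y + sens f (fun i => !(y i))) := by
  classical
  constructor
  · intro hle hex
    obtain ⟨y, hy⟩ := hex
    rcases hy with ⟨h1, h2⟩ | ⟨h1, h2, h3⟩
    · -- same value, imbalance at least nine
      have h2' : (sens f y : ℝ) + 9 ≤ (sens f (neg y) : ℝ) := by exact_mod_cast h2
      have h1' : f y = f (neg y) := h1
      rcases hb y with a | a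
      · -- value 1: use the pole y
        have h := signed_levelOne_four f hb hf y
        have hle2 := signed_le_abs f y
        rw [← h1', a] at h
        linarith
      · -- value -1: use the pole neg y
        have h := signed_levelOne_four f hb hf (neg y)
        have hle2 := signed_le_abs f (neg y)
        rw [neg_neg_pt, ← h1', a] at h
        linarith
    · have h3' : (15 : ℝ) ≤ (sens f y : ℝ) + (sens f (neg y) : ℝ) := by exact_mod_cast h3
      have h2' : f (neg y) = 1 := h2
      have h := signed_levelOne_four f hb hf y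
      have hle2 := signed_le_abs f y
      rw [h1, h2'] at h
      linarith
  · intro hno
    by_contra hgt
    push Not at hgt
    apply hno
    let y : Fin n → Bool := fun i => decide (fourier f {i} < 0)
    have h := signed_levelOne_four f hb hf y
    have e : ∑ i : Fin n, sgn (y i) * fourier f {i} = ∑ i : Fin n, |fourier f {i}| := by
      refine Finset.sum_congr rfl fun i _ => ?_
      by_cases hneg : fourier f {i} < 0
      · have : y i = true := by simp [y, hneg]
        rw [this, abs_of_neg hneg]; simp [sgn]
      · have : y i = false := by simp [y, hneg]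
        rw [this, abs_of_nonneg (not_lt.mp hneg)]; simp [sgn]
    rw [e] at h
    have p1 : (0 : ℝ) ≤ (sens f y : ℝ) := Nat.cast_nonneg _
    have p2 : (0 : ℝ) ≤ (sens f (neg y) : ℝ) := Nat.cast_nonneg _
    rcases hb y with a | a <;> rcases hb (neg y) with b | b
    · -- (1,1): sens (neg y) - sens y > 8
      refine ⟨y, Or.inl ⟨by rw [a]; exact b.symm, ?_⟩⟩
      rw [a, b] at h
      have : (sens f y : ℝ) + 8 < (sens f (neg y) : ℝ) := by linarith
      have h' : sens f y + 8 < sens f (neg y) := by exact_mod_cast this
      show sens f y + 9 ≤ sens f (neg y)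
      omega
    · rw [a, b] at h
      exfalso; linarith
    · refine ⟨y, Or.inr ⟨a, b, ?_⟩⟩
      rw [a, b] at h
      have : (14 : ℝ) < (sens f y : ℝ) + (sens f (neg y) : ℝ) := by linarith
      have h' : 14 < sens f y + sens f (neg y) := by exact_mod_cast this
      show 15 ≤ sens f y + sens f (neg y)
      omega
    · refine ⟨neg y, Or.inl ⟨?_, ?_⟩⟩
      · show f (neg y) = f (neg (neg y))
        rw [neg_neg_pt, a, b]
      · rw [a, b] at h
        have : (sens f (neg y) : ℝ) + 8 < (sens f y : ℝ) := by linarith
        have h' : sens f (neg y) + 8 < sens f y := by exact_mod_cast this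
        show sens f (neg y) + 9 ≤ sens f (neg (neg y))
        rw [neg_neg_pt]
        omega

end Vale.Agent.Lib.P047
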