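import Vale.Agent.Lib.P047.PowerLaw

namespace Vale.Agent.Lib.P047

open Finset

lemma degLE_mono {n a b : ℕ} (f : (Fin n → Bool) → ℝ) (h : DegLE f a) (hab : a ≤ b) :
    DegLE f b := fun S hS => h S (lt_of_le_of_lt hab hS)

/-- Mixed powers: from a Boolean function `f` of degree at most `d` with nonnegative mean and
nonnegative level-one sum `w`, Boolean functions with mean zero, of degree at most
`(k + 1) * d ^ k` and level-one sum at least `w ^ k`, for every `k`.  The step is
`h ↦ z * f (z * h (x^1), ..., z * h (x^n))`. -/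
theorem exists_mixed_power {n d : ℕ} (f : (Fin n → Bool) → ℝ) (hf : IsBoolean f)
    (hd : DegLE f d) (hd1 : 1 ≤ d) (hm : 0 ≤ fourier f ∅) (hw : 0 ≤ levelOne f) :
    ∀ k : ℕ, ∃ (N : ℕ) (h : (Fin N → Bool) → ℝ), IsBoolean h ∧ DegLE h ((k + 1) * d ^ k)
      ∧ fourier h ∅ = 0 ∧ levelOne f ^ k ≤ levelOne h
  | 0 => by
      obtain ⟨h, h1, h2, h3, h4⟩ := exists_dictator
      exact ⟨1, h, h1, by simpa using h2, h3, by simp [h4]⟩
  | (k + 1) => by
      obtain ⟨N, h, hb, hdeg, hz, hl⟩ := exists_mixed_power f hf hd hd1 hm hw k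
      obtain ⟨h', hb', hdeg', hz', hl'⟩ := exists_comp f h hf hb hd hdeg hz
      refine ⟨n * N + 1, oddLift h', isBoolean_oddLift h' hb', ?_, fourier_oddLift_empty h', ?_⟩
      · refine degLE_mono _ (degLE_oddLift h' hdeg') ?_
        have h1 : 1 ≤ d ^ (k + 1) := Nat.one_le_pow _ _ hd1
        have h2 : d * ((k + 1) * d ^ k) = (k + 1) * d ^ (k + 1) := by ring
        rw [h2]
        nlinarith
      · rw [levelOne_oddLift, hz', hl', pow_succ]
        have h3 : levelOne f ^ k * levelOne f ≤ levelOne h * levelOne f :=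
          mul_le_mul_of_nonneg_right hl hw
        nlinarith

/-- An exponential beats a polynomial. -/
lemma exists_pow_gt (C : ℝ) (m : ℕ) {r : ℝ} (hr : 1 < r) :
    ∃ k : ℕ, C * ((k : ℝ) + 1) ^ m < r ^ k := by
  have hr0 : 0 < r := by linarith
  have ht := tendsto_pow_const_div_const_pow_of_one_lt m hr
  have ht' := ht.comp (Filter.tendsto_add_atTop_nat 1)
  have hε : 0 < 1 / (|C| * r + 1) := by positivity
  have hev := ht'.eventually (gt_mem_nhds hε)
  obtain ⟨k, hk⟩ := hev.exists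
  refine ⟨k, ?_⟩
  simp only [Function.comp] at hk
  push_cast at hk
  have hrk : 0 < r ^ (k + 1) := pow_pos hr0 _
  rw [div_lt_iff₀ hrk] at hk
  have hC : 0 ≤ |C| := abs_nonneg C
  have hpos : 0 < |C| * r + 1 := by positivity
  have h1 : C * ((k : ℝ) + 1) ^ m ≤ |C| * ((k : ℝ) + 1) ^ m :=
    mul_le_mul_of_nonneg_right (le_abs_self C) (by positivity)
  have h2 : |C| * ((k : ℝ) + 1) ^ m ≤ |C| * (1 / (|C| * r + 1) * r ^ (k + 1)) :=
    mul_le_mul_of_nonneg_left hk.le hC
  have h3 : |C| * (1 / (|C| * r + 1) * r ^ (k + 1)) < r ^ k := by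
    have h4 : |C| * (1 / (|C| * r + 1) * r ^ (k + 1)) = (|C| * r / (|C| * r + 1)) * r ^ k := by
      rw [pow_succ]
      field_simp
    rw [h4]
    have h5 : |C| * r / (|C| * r + 1) < 1 := by
      rw [div_lt_one hpos]
      linarith
    have hrk' : 0 < r ^ k := pow_pos hr0 _
    nlinarith
  linarith

/-- If the level-one sum of every Boolean function of degree at most `d` is at most
`C * d ^ α`, then the level-one sum of every Boolean function of degree at most `d` with
nonnegative mean is at most `d ^ α`. -/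
theorem power_law_nonneg (C α : ℝ)
    (hweak : ∀ (n d : ℕ) (f : (Fin n → Bool) → ℝ), IsBoolean f → DegLE f d →
      levelOne f ≤ C * (d : ℝ) ^ α)
    (n d : ℕ) (f : (Fin n → Bool) → ℝ) (hf : IsBoolean f) (hd : DegLE f d)
    (hm : 0 ≤ fourier f ∅) :
    levelOne f ≤ (d : ℝ) ^ α := by
  by_contra hcon
  push Not at hcon
  have hs0 : 0 ≤ (d : ℝ) ^ α := Real.rpow_nonneg (Nat.cast_nonneg d) α
  have hdpos : 1 ≤ d := by
    by_contra hd0
    have hd0' : d = 0 := by omega
    subst hd0'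
    have hz : levelOne f = 0 := by
      unfold levelOne
      refine Finset.sum_eq_zero fun i _ => hd _ ?_
      simp
    rw [hz] at hcon
    linarith
  have hspos : 0 < (d : ℝ) ^ α := Real.rpow_pos_of_pos (by exact_mod_cast hdpos) α
  have hw : 0 ≤ levelOne f := by linarith
  have hr : 1 < levelOne f / (d : ℝ) ^ α := by
    rw [lt_div_iff₀ hspos]
    linarith
  obtain ⟨k, hk⟩ := exists_pow_gt |C| ⌈α⌉₊ hr
  obtain ⟨N, h, hb, hdeg, _, hl⟩ := exists_mixed_power f hf hd hdpos hm hw k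
  have h1 := hweak N ((k + 1) * d ^ k) h hb hdeg
  have hk1 : (1 : ℝ) ≤ (k : ℝ) + 1 := by
    have : (0 : ℝ) ≤ (k : ℝ) := Nat.cast_nonneg k
    linarith
  have hsq : ((((k + 1) * d ^ k : ℕ)) : ℝ) ^ α = ((k : ℝ) + 1) ^ α * ((d : ℝ) ^ α) ^ k := by
    push_cast
    rw [Real.mul_rpow (by linarith) (pow_nonneg (Nat.cast_nonneg d) k),
      Real.rpow_pow_comm (Nat.cast_nonneg d)]
  rw [hsq] at h1
  have hle : ((k : ℝ) + 1) ^ α ≤ ((k : ℝ) + 1) ^ ⌈α⌉₊ := by
    rw [← Real.rpow_natCast]
    exact Real.rpow_le_rpow_of_exponent_le hk1 (Nat.le_ceil α)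
  have hpk : 0 < ((d : ℝ) ^ α) ^ k := pow_pos hspos _
  have hka : 0 ≤ ((k : ℝ) + 1) ^ α := Real.rpow_nonneg (by linarith) α
  have h2 : levelOne f ^ k ≤ |C| * ((k : ℝ) + 1) ^ ⌈α⌉₊ * ((d : ℝ) ^ α) ^ k := by
    calc levelOne f ^ k ≤ levelOne h := hl
      _ ≤ C * (((k : ℝ) + 1) ^ α * ((d : ℝ) ^ α) ^ k) := h1
      _ ≤ |C| * (((k : ℝ) + 1) ^ α * ((d : ℝ) ^ α) ^ k) :=
          mul_le_mul_of_nonneg_right (le_abs_self C) (by positivity)
      _ ≤ |C| * (((k : ℝ) + 1) ^ ⌈α⌉₊ * ((d : ℝ) ^ α) ^ k) :=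
          mul_le_mul_of_nonneg_left (mul_le_mul_of_nonneg_right hle hpk.le) (abs_nonneg C)
      _ = |C| * ((k : ℝ) + 1) ^ ⌈α⌉₊ * ((d : ℝ) ^ α) ^ k := by ring
  have h3 : (levelOne f / (d : ℝ) ^ α) ^ k ≤ |C| * ((k : ℝ) + 1) ^ ⌈α⌉₊ := by
    rw [div_pow, div_le_iff₀ hpk]
    exact h2
  linarith

/-- If the level-one sum of every Boolean function of degree at most `d` is at most
`C * d ^ α`, then the level-one sum of every Boolean function of degree at most `d` is at most
`d ^ α`: the constant can be removed, for every function. -/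
theorem power_law_all (C α : ℝ)
    (hweak : ∀ (n d : ℕ) (f : (Fin n → Bool) → ℝ), IsBoolean f → DegLE f d →
      levelOne f ≤ C * (d : ℝ) ^ α)
    (n d : ℕ) (f : (Fin n → Bool) → ℝ) (hf : IsBoolean f) (hd : DegLE f d) :
    levelOne f ≤ (d : ℝ) ^ α := by
  rcases le_total 0 (fourier f ∅) with hm | hm
  · exact power_law_nonneg C α hweak n d f hf hd hm
  · have h := power_law_nonneg C α hweak n d (dual f) (isBoolean_dual f hf) (degLE_dual f hd)
      (by rw [fourier_dual_empty]; linarith)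
    rwa [levelOne_dual] at h

/-- If for every exponent `α > 1/2` the level-one sum of every Boolean function of degree at
most `d` is at most `C * d ^ α` (with `C` depending on `α`), then the level-one sum of every
Boolean function of degree at most `d` is at most `sqrt d`. -/
theorem sqrt_of_subpower_all
    (hweak : ∀ α : ℝ, 1 / 2 < α → ∃ C : ℝ, ∀ (n d : ℕ) (f : (Fin n → Bool) → ℝ),
      IsBoolean f → DegLE f d → levelOne f ≤ C * (d : ℝ) ^ α)
    (n d : ℕ) (f : (Fin n → Bool) → ℝ) (hf : IsBoolean f) (hd : DegLE f d) :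
    levelOne f ≤ Real.sqrt d := by
  by_contra hcon
  push Not at hcon
  have hs0 := Real.sqrt_nonneg (d : ℝ)
  have hw : 0 < levelOne f := lt_of_le_of_lt hs0 hcon
  rcases Nat.lt_or_ge d 2 with hlt | hge
  · obtain ⟨C, hC⟩ := hweak 1 (by norm_num)
    have h1 := power_law_all C 1 hC n d f hf hd
    rw [Real.rpow_one] at h1
    interval_cases d
    · simp at hcon h1
      linarith
    · simp at hcon h1
      linarith
  · have hd1 : (1 : ℝ) < d := by exact_mod_cast hge
    have hmpos : 0 < (levelOne f + Real.sqrt d) / 2 := by linarith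
    have hpow : (d : ℝ) ^ Real.logb d ((levelOne f + Real.sqrt d) / 2)
        = (levelOne f + Real.sqrt d) / 2 :=
      Real.rpow_logb (by linarith) (ne_of_gt hd1) hmpos
    have hα : 1 / 2 < Real.logb d ((levelOne f + Real.sqrt d) / 2) := by
      rw [← Real.rpow_lt_rpow_left_iff hd1, hpow, ← Real.sqrt_eq_rpow]
      linarith
    obtain ⟨C, hC⟩ := hweak _ hα
    have h1 := power_law_all C _ hC n d f hf hd
    rw [hpow] at h1
    linarith

/-- The weak form with exponent `1/2` gives the exact square-root inequality. -/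
theorem sqrt_of_weak (C : ℝ)
    (hweak : ∀ (n d : ℕ) (f : (Fin n → Bool) → ℝ), IsBoolean f → DegLE f d →
      levelOne f ≤ C * Real.sqrt d)
    (n d : ℕ) (f : (Fin n → Bool) → ℝ) (hf : IsBoolean f) (hd : DegLE f d) :
    levelOne f ≤ Real.sqrt d := by
  have h := power_law_all C (1 / 2) (fun n d f hf hd => by
    rw [← Real.sqrt_eq_rpow]
    exact hweak n d f hf hd) n d f hf hd
  rwa [← Real.sqrt_eq_rpow] at h

end Vale.Agent.Lib.P047

namespace Vale.Agent.Lib.P047

/-- Mixed powers without a hypothesis on the mean. -/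
theorem exists_mixed_power_all {n d : ℕ} (f : (Fin n → Bool) → ℝ) (hf : IsBoolean f)
    (hd : DegLE f d) (hd1 : 1 ≤ d) (hw : 0 ≤ levelOne f) (k : ℕ) :
    ∃ (N : ℕ) (h : (Fin N → Bool) → ℝ), IsBoolean h ∧ DegLE h ((k + 1) * d ^ k)
      ∧ fourier h ∅ = 0 ∧ levelOne f ^ k ≤ levelOne h := by
  rcases le_total 0 (fourier f ∅) with hm | hm
  · exact exists_mixed_power f hf hd hd1 hm hw k
  · have h := exists_mixed_power (dual f) (isBoolean_dual f hf) (degLE_dual f hd) hd1
      (by rw [fourier_dual_empty]; linarith) (by rw [levelOne_dual]; exact hw) k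
    rwa [levelOne_dual] at h

end Vale.Agent.Lib.P047
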