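import Vale.Agent.Lib.P047.Basic

namespace Vale.Agent.Lib.P047

open Finset

lemma chi_sq {n : ℕ} (S : Finset (Fin n)) (x : Fin n → Bool) : chi S x * chi S x = 1 := by
  classical
  rw [chi_mul]
  simp [chi_empty]

lemma chi_singleton {n : ℕ} (i : Fin n) (x : Fin n → Bool) : chi {i} x = sgn (x i) := by
  simp [chi]

lemma chi_symmDiff_singleton {n : ℕ} (S : Finset (Fin n)) (i : Fin n) (x : Fin n → Bool) :
    chi (symmDiff S {i}) x = chi S x * sgn (x i) := by
  rw [← chi_mul, chi_singleton]

lemma sgn_mul_sgn_of_ne {a b : Bool} (h : a ≠ b) : sgn a * sgn b = -1 := by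
  cases a <;> cases b <;> simp_all [sgn]

/-- dual orthogonality -/
lemma sum_chi_mul_chi_dual {n : ℕ} (x y : Fin n → Bool) :
    ∑ S : Finset (Fin n), chi S x * chi S y = if x = y then (2 : ℝ) ^ n else 0 := by
  classical
  by_cases hxy : x = y
  · subst hxy
    simp [chi_sq]
  · rw [if_neg hxy]
    obtain ⟨i, hi⟩ : ∃ i, x i ≠ y i := Function.ne_iff.mp hxy
    have hinv : Function.Involutive (fun S : Finset (Fin n) => symmDiff S {i}) := by
      intro S
      show symmDiff (symmDiff S {i}) {i} = S
      rw [symmDiff_assoc, symmDiff_self]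
      simp
    have hstep : ∀ S : Finset (Fin n),
        chi (symmDiff S {i}) x * chi (symmDiff S {i}) y = - (chi S x * chi S y) := by
      intro S
      rw [chi_symmDiff_singleton, chi_symmDiff_singleton]
      have h1 := sgn_mul_sgn_of_ne hi
      calc chi S x * sgn (x i) * (chi S y * sgn (y i))
          = chi S x * chi S y * (sgn (x i) * sgn (y i)) := by ring
        _ = - (chi S x * chi S y) := by rw [h1]; ring
    have key : ∑ S : Finset (Fin n), chi S x * chi S y
        = - ∑ S : Finset (Fin n), chi S x * chi S y := by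
      have h2 := Equiv.sum_comp (hinv.toPerm _) (fun S : Finset (Fin n) => chi S x * chi S y)
      calc ∑ S : Finset (Fin n), chi S x * chi S y
          = ∑ S : Finset (Fin n), chi (symmDiff S {i}) x * chi (symmDiff S {i}) y := h2.symm
        _ = ∑ S : Finset (Fin n), - (chi S x * chi S y) :=
            Finset.sum_congr rfl fun S _ => hstep S
        _ = - ∑ S : Finset (Fin n), chi S x * chi S y := by rw [Finset.sum_neg_distrib]
    linarith

/-- Fourier inversion on the cube. -/
lemma fourier_inversion {n : ℕ} (f : (Fin n → Bool) → ℝ) (y : Fin n → Bool) :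
    f y = ∑ S : Finset (Fin n), fourier f S * chi S y := by
  classical
  unfold fourier
  have h2 : (2 : ℝ) ^ n ≠ 0 := by positivity
  have h : ∑ S : Finset (Fin n), (∑ x : Fin n → Bool, f x * chi S x) / 2 ^ n * chi S y
      = (∑ x : Fin n → Bool, f x * ∑ S : Finset (Fin n), chi S x * chi S y) / 2 ^ n := by
    rw [Finset.sum_div]
    simp_rw [Finset.mul_sum, Finset.sum_div, Finset.sum_mul]
    rw [Finset.sum_comm]
    refine Finset.sum_congr rfl fun x _ => Finset.sum_congr rfl fun S _ => by ring
  rw [h]
  simp_rw [sum_chi_mul_chi_dual]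
  simp [h2]

/-- A function of degree at most `d` is the sum of its low-degree characters. -/
lemma eq_sum_low {n : ℕ} (f : (Fin n → Bool) → ℝ) (d : ℕ) (hf : DegLE f d) (y : Fin n → Bool) :
    f y = ∑ S ∈ (Finset.univ : Finset (Finset (Fin n))).filter (fun S => S.card ≤ d),
      fourier f S * chi S y := by
  classical
  rw [fourier_inversion f y, Finset.sum_filter]
  refine Finset.sum_congr rfl fun S _ => ?_
  by_cases h : S.card ≤ d
  · rw [if_pos h]
  · rw [if_neg h, hf S (by omega)]; ring

end Vale.Agent.Lib.P047
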