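import Vale.Agent.Lib.P047.Compose

namespace Vale.Agent.Lib.P047

open Finset

lemma fourier_chi {n : ℕ} (S T : Finset (Fin n)) :
    fourier (chi S) T = if S = T then 1 else 0 := by
  unfold fourier
  rw [sum_chi_mul_chi]
  have h2 : (2 : ℝ) ^ n ≠ 0 := by positivity
  by_cases h : S = T
  · simp [h, h2]
  · simp [h]

/-- the dictator function on one variable -/
lemma exists_dictator :
    ∃ h : (Fin 1 → Bool) → ℝ, IsBoolean h ∧ DegLE h 1 ∧ fourier h ∅ = 0 ∧ levelOne h = 1 := by
  refine ⟨chi {0}, ?_, ?_, ?_, ?_⟩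
  · intro x
    rw [chi_singleton]
    cases x 0 <;> simp [sgn]
  · intro T hT
    rw [fourier_chi, if_neg]
    rintro rfl
    simp at hT
  · rw [fourier_chi, if_neg]
    exact Finset.singleton_ne_empty 0
  · unfold levelOne
    simp [fourier_chi]

/-- Powers by repeated composition: from a Boolean function with mean zero, of degree at most
`d` and level-one sum `w`, Boolean functions with mean zero, of degree at most `d ^ k` and
level-one sum `w ^ k`, for every `k`. -/
theorem exists_power {n d : ℕ} (f : (Fin n → Bool) → ℝ) (hf : IsBoolean f) (hd : DegLE f d)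
    (h0 : fourier f ∅ = 0) :
    ∀ k : ℕ, ∃ (N : ℕ) (h : (Fin N → Bool) → ℝ), IsBoolean h ∧ DegLE h (d ^ k)
      ∧ fourier h ∅ = 0 ∧ levelOne h = levelOne f ^ k
  | 0 => by
      obtain ⟨h, h1, h2, h3, h4⟩ := exists_dictator
      exact ⟨1, h, h1, by simpa using h2, h3, by simpa using h4⟩
  | (k + 1) => by
      obtain ⟨N, h, hb, hdeg, hz, hl⟩ := exists_power f hf hd h0 k
      obtain ⟨h', hb', hdeg', hz', hl'⟩ := exists_comp h f hb hf hdeg hd h0
      exact ⟨N * n, h', hb', by rw [pow_succ]; exact hdeg', by rw [hz', hz],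
        by rw [hl', hl, pow_succ]⟩

/-- If the level-one sum of every Boolean function is at most `C * sqrt (degree)`, then the
level-one sum of every Boolean function with mean zero is at most `sqrt (degree)`. -/
theorem strong_of_weak (C : ℝ)
    (hweak : ∀ (n d : ℕ) (f : (Fin n → Bool) → ℝ), IsBoolean f → DegLE f d →
      levelOne f ≤ C * Real.sqrt d)
    (n d : ℕ) (f : (Fin n → Bool) → ℝ) (hf : IsBoolean f) (hd : DegLE f d)
    (h0 : fourier f ∅ = 0) :
    levelOne f ≤ Real.sqrt d := by
  by_contra hcon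
  push Not at hcon
  have hs0 : 0 ≤ Real.sqrt d := Real.sqrt_nonneg _
  have hdpos : 1 ≤ d := by
    by_contra hd0
    have hd0' : d = 0 := by omega
    subst hd0'
    have hz : levelOne f = 0 := by
      unfold levelOne
      refine Finset.sum_eq_zero fun i _ => hd _ ?_
      simp
    rw [hz] at hcon
    simp at hcon
  have hs1 : 1 ≤ Real.sqrt d := by
    rw [Real.one_le_sqrt]
    exact_mod_cast hdpos
  have hspos : 0 < Real.sqrt d := by linarith
  have hr : 1 < levelOne f / Real.sqrt d := by
    rw [lt_div_iff₀ hspos]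
    linarith
  obtain ⟨k, hk⟩ := pow_unbounded_of_one_lt C hr
  obtain ⟨N, h, hb, hdeg, _, hl⟩ := exists_power f hf hd h0 k
  have h1 := hweak N (d ^ k) h hb hdeg
  have hsq : Real.sqrt ((d ^ k : ℕ) : ℝ) = Real.sqrt d ^ k := by
    have h2 : ((d ^ k : ℕ) : ℝ) = (Real.sqrt d ^ k) ^ 2 := by
      push_cast
      rw [← pow_mul, mul_comm, pow_mul, Real.sq_sqrt (Nat.cast_nonneg d)]
    rw [h2, Real.sqrt_sq (pow_nonneg hs0 _)]
  rw [hl, hsq] at h1
  have h2 : (levelOne f / Real.sqrt d) ^ k ≤ C := by
    rw [div_pow, div_le_iff₀ (pow_pos hspos _)]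
    exact h1
  linarith

end Vale.Agent.Lib.P047
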