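import Vale.Agent.Lib.P047.PoleFour

namespace Vale.Agent.Lib.P047

open Finset

/-- coordinatewise product of two points of the cube (exclusive or of the bits) -/
def xorPt {n : ℕ} (x y : Fin n → Bool) : Fin n → Bool := fun i => xor (x i) (y i)

/-- the function `x ↦ f (x ∘ y)` -/
def twist {n : ℕ} (y : Fin n → Bool) (f : (Fin n → Bool) → ℝ) : (Fin n → Bool) → ℝ :=
  fun x => f (xorPt x y)

/-- the antipode of a point -/
def neg {n : ℕ} (y : Fin n → Bool) : Fin n → Bool := fun i => !(y i)

lemma sgn_xor (a b : Bool) : sgn (xor a b) = sgn a * sgn b := by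
  cases a <;> cases b <;> simp [sgn]

lemma chi_xorPt {n : ℕ} (S : Finset (Fin n)) (x y : Fin n → Bool) :
    chi S (xorPt x y) = chi S x * chi S y := by
  unfold chi xorPt
  rw [← Finset.prod_mul_distrib]
  exact Finset.prod_congr rfl fun i _ => sgn_xor _ _

lemma xorPt_xorPt {n : ℕ} (x y : Fin n → Bool) : xorPt (xorPt x y) y = x := by
  funext i
  simp [xorPt]

lemma fourier_twist {n : ℕ} (y : Fin n → Bool) (f : (Fin n → Bool) → ℝ) (S : Finset (Fin n)) :
    fourier (twist y f) S = chi S y * fourier f S := by
  unfold fourier twist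
  have hinv : Function.Involutive (fun x : Fin n → Bool => xorPt x y) := fun x => xorPt_xorPt x y
  have h := Equiv.sum_comp (hinv.toPerm _) (fun x : Fin n → Bool => f x * chi S (xorPt x y))
  have h2 : ∑ x : Fin n → Bool, f (xorPt x y) * chi S x
      = ∑ x : Fin n → Bool, f x * chi S (xorPt x y) := by
    rw [← h]
    refine Finset.sum_congr rfl fun x _ => ?_
    show f (xorPt x y) * chi S x = f (xorPt x y) * chi S (xorPt (xorPt x y) y)
    rw [xorPt_xorPt]
  rw [h2]
  simp_rw [chi_xorPt]
  rw [mul_div_assoc', Finset.mul_sum]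
  congr 1
  refine Finset.sum_congr rfl fun x _ => by ring

lemma degLE_twist {n : ℕ} (y : Fin n → Bool) (f : (Fin n → Bool) → ℝ) (d : ℕ) (hf : DegLE f d) :
    DegLE (twist y f) d := by
  intro S hS
  rw [fourier_twist, hf S hS, mul_zero]

lemma isBoolean_twist {n : ℕ} (y : Fin n → Bool) (f : (Fin n → Bool) → ℝ) (hf : IsBoolean f) :
    IsBoolean (twist y f) := fun x => hf _

lemma levelOne_twist {n : ℕ} (y : Fin n → Bool) (f : (Fin n → Bool) → ℝ) :
    levelOne (twist y f) = ∑ i : Fin n, sgn (y i) * fourier f {i} := by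
  unfold levelOne
  refine Finset.sum_congr rfl fun i _ => ?_
  rw [fourier_twist, chi_singleton]

lemma xorPt_top {n : ℕ} (y : Fin n → Bool) : xorPt (top n) y = y := by
  funext i; simp [xorPt, top]

lemma xorPt_bot {n : ℕ} (y : Fin n → Bool) : xorPt (bot n) y = neg y := by
  funext i; simp [xorPt, bot, neg]

lemma xorPt_flip {n : ℕ} (i : Fin n) (x y : Fin n → Bool) :
    xorPt (flip i x) y = flip i (xorPt x y) := by
  funext j
  by_cases h : j = i
  · subst h; simp [xorPt, flip]
  · simp [xorPt, flip, Function.update_of_ne h]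

lemma sum_flip_of_boolean {n : ℕ} (f : (Fin n → Bool) → ℝ) (hf : IsBoolean f) (x : Fin n → Bool) :
    ∑ i : Fin n, f (flip i x) = f x * ((n : ℝ) - 2 * (sens f x : ℝ)) := by
  classical
  have h : ∀ i : Fin n, f (flip i x)
      = f x - (if f (Function.update x i (!(x i))) ≠ f x then 2 * f x else 0) := by
    intro i
    show f (Function.update x i (!(x i))) = _
    by_cases hne : f (Function.update x i (!(x i))) ≠ f x
    · rw [if_pos hne]
      rcases hf (Function.update x i (!(x i))) with h1 | h1 <;> rcases hf x with h2 | h2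
      · exact absurd (h1.trans h2.symm) hne
      · rw [h1, h2]; norm_num
      · rw [h1, h2]; norm_num
      · exact absurd (h1.trans h2.symm) hne
    · rw [if_neg hne]
      push Not at hne
      rw [hne]; ring
  simp_rw [h]
  rw [Finset.sum_sub_distrib, ← Finset.sum_filter]
  simp only [Finset.sum_const, Finset.card_univ, Fintype.card_fin, nsmul_eq_mul]
  unfold sens
  ring

/-- The exact formula for the signed level-one sum of a Boolean function of degree at most four. -/
theorem signed_levelOne_four {n : ℕ} (f : (Fin n → Bool) → ℝ) (hb : IsBoolean f) (hf : DegLE f 4)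
    (y : Fin n → Bool) :
    4 * ∑ i : Fin n, sgn (y i) * fourier f {i}
      = 3 * (f y - f (neg y)) - f y * (sens f y : ℝ) + f (neg y) * (sens f (neg y) : ℝ) := by
  have h := pole_identity_four (twist y f) (degLE_twist y f 4 hf)
  rw [levelOne_twist] at h
  have e1 : twist y f (top n) = f y := by unfold twist; rw [xorPt_top]
  have e2 : twist y f (bot n) = f (neg y) := by unfold twist; rw [xorPt_bot]
  have e3 : ∀ i : Fin n, twist y f (flip i (top n)) = f (flip i y) := by
    intro i; unfold twist; rw [xorPt_flip, xorPt_top]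
  have e4 : ∀ i : Fin n, twist y f (flip i (bot n)) = f (flip i (neg y)) := by
    intro i; unfold twist; rw [xorPt_flip, xorPt_bot]
  simp_rw [e1, e2, e3, e4] at h
  rw [Finset.sum_sub_distrib, sum_flip_of_boolean f hb y, sum_flip_of_boolean f hb (neg y)] at h
  linarith

end Vale.Agent.Lib.P047
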