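import Vale.Agent.Lib.P047.Table
import Vale.Agent.Lib.P047.Twist
import Vale.Agent.Lib.P047.Tensor

namespace Vale.Agent.Lib.P047

open Finset

/-- the odd function `F (z, x) = z * f (z * x)` on one more variable -/
def oddLift {n : ℕ} (f : (Fin n → Bool) → ℝ) : (Fin (n + 1) → Bool) → ℝ :=
  fun x => sgn (x 0) * f (fun i => xor (x 0) (x i.succ))

lemma neg_neg_pt {n : ℕ} (y : Fin n → Bool) : neg (neg y) = y := by
  funext i
  simp [neg]

lemma chi_neg_pt {n : ℕ} (S : Finset (Fin n)) (y : Fin n → Bool) :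
    chi S (neg y) = (-1) ^ S.card * chi S y := by
  rw [← xorPt_bot, chi_xorPt, chi_bot]

lemma sum_neg_pt {n : ℕ} (F : (Fin n → Bool) → ℝ) :
    ∑ y : Fin n → Bool, F (neg y) = ∑ y : Fin n → Bool, F y := by
  have hinv : Function.Involutive (fun y : Fin n → Bool => neg y) := neg_neg_pt
  exact Equiv.sum_comp (hinv.toPerm _) F

lemma oddLift_cons_false {n : ℕ} (f : (Fin n → Bool) → ℝ) (y : Fin n → Bool) :
    oddLift f (Fin.cons false y) = f y := by
  simp [oddLift, sgn]

lemma oddLift_cons_true {n : ℕ} (f : (Fin n → Bool) → ℝ) (y : Fin n → Bool) :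
    oddLift f (Fin.cons true y) = - f (neg y) := by
  simp only [oddLift, sgn, Fin.cons_zero, Fin.cons_succ, if_true, Bool.true_xor]
  rw [neg_one_mul]
  rfl

lemma card_eq_card_tail {n : ℕ} (U : Finset (Fin (n + 1))) :
    U.card = (Finset.univ.filter (fun i : Fin n => i.succ ∈ U)).card
      + (if (0 : Fin (n + 1)) ∈ U then 1 else 0) := by
  classical
  have h := Fin.card_filter_univ_succ (fun i : Fin (n + 1) => i ∈ U)
  rw [Finset.filter_mem_eq_inter, Finset.univ_inter] at h
  rw [h]
  split_ifs <;> rfl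

/-- the Fourier coefficients of the odd lift -/
lemma fourier_oddLift {n : ℕ} (f : (Fin n → Bool) → ℝ) (U : Finset (Fin (n + 1))) :
    fourier (oddLift f) U
      = (1 - (-1) ^ U.card) / 2 * fourier f (Finset.univ.filter (fun i : Fin n => i.succ ∈ U)) := by
  classical
  unfold fourier
  rw [sum_cube_succ]
  simp only [oddLift_cons_false, oddLift_cons_true, chi_cons]
  set U' := Finset.univ.filter (fun i : Fin n => i.succ ∈ U) with hU'
  have h1 : ∑ y : Fin n → Bool, f (neg y) * chi U' y
      = (-1) ^ U'.card * ∑ y : Fin n → Bool, f y * chi U' y := by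
    rw [← sum_neg_pt (fun y => f (neg y) * chi U' y), Finset.mul_sum]
    refine Finset.sum_congr rfl fun y _ => ?_
    rw [neg_neg_pt, chi_neg_pt]
    ring
  have hc := card_eq_card_tail U
  rw [← hU'] at hc
  by_cases h0 : (0 : Fin (n + 1)) ∈ U
  · simp only [h0, if_true, sgn] at hc ⊢
    simp only [Bool.false_eq_true, if_false, one_mul]
    have e : ∑ y : Fin n → Bool, (f y * chi U' y + -f (neg y) * (-1 * chi U' y))
        = ∑ y : Fin n → Bool, f y * chi U' y + ∑ y : Fin n → Bool, f (neg y) * chi U' y := by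
      rw [← Finset.sum_add_distrib]
      refine Finset.sum_congr rfl fun y _ => by ring
    rw [e, h1, hc, pow_succ, pow_succ]
    ring
  · simp only [h0, if_false, one_mul, add_zero] at hc ⊢
    have e : ∑ y : Fin n → Bool, (f y * chi U' y + -f (neg y) * chi U' y)
        = ∑ y : Fin n → Bool, f y * chi U' y - ∑ y : Fin n → Bool, f (neg y) * chi U' y := by
      rw [← Finset.sum_sub_distrib]
      refine Finset.sum_congr rfl fun y _ => by ring
    rw [e, h1, hc, pow_succ]
    ring

lemma isBoolean_oddLift {n : ℕ} (f : (Fin n → Bool) → ℝ) (hf : IsBoolean f) :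
    IsBoolean (oddLift f) := by
  intro x
  unfold oddLift
  have h := hf (fun i => xor (x 0) (x i.succ))
  generalize f (fun i => xor (x 0) (x i.succ)) = r at h ⊢
  rcases h with rfl | rfl <;> cases x 0 <;> simp [sgn]

lemma fourier_oddLift_empty {n : ℕ} (f : (Fin n → Bool) → ℝ) : fourier (oddLift f) ∅ = 0 := by
  rw [fourier_oddLift]
  simp

lemma levelOne_oddLift {n : ℕ} (f : (Fin n → Bool) → ℝ) :
    levelOne (oddLift f) = fourier f ∅ + levelOne f := by
  classical
  unfold levelOne
  rw [Fin.sum_univ_succ]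
  congr 1
  · rw [fourier_oddLift]
    have e : (Finset.univ.filter (fun i : Fin n => i.succ ∈ ({0} : Finset (Fin (n + 1)))))
        = ∅ := by
      ext i
      simp [Fin.succ_ne_zero]
    rw [e]
    simp
  · refine Finset.sum_congr rfl fun i _ => ?_
    rw [fourier_oddLift]
    have e : (Finset.univ.filter (fun j : Fin n => j.succ ∈ ({i.succ} : Finset (Fin (n + 1)))))
        = {i} := by
      ext j
      simp
    rw [e]
    simp

lemma degLE_oddLift {n d : ℕ} (f : (Fin n → Bool) → ℝ) (hd : DegLE f d) :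
    DegLE (oddLift f) (d + 1) := by
  classical
  intro U hU
  rw [fourier_oddLift]
  have hc := card_eq_card_tail U
  have h1 : d < (Finset.univ.filter (fun i : Fin n => i.succ ∈ U)).card := by
    split_ifs at hc <;> omega
  rw [hd _ h1, mul_zero]

lemma degLE_oddLift_of_odd {n d : ℕ} (f : (Fin n → Bool) → ℝ) (hd : DegLE f d) (hodd : Odd d) :
    DegLE (oddLift f) d := by
  classical
  intro U hU
  rw [fourier_oddLift]
  rcases Nat.even_or_odd U.card with he | ho
  · rw [he.neg_one_pow]
    simp
  · have hc := card_eq_card_tail U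
    have h1 : d < (Finset.univ.filter (fun i : Fin n => i.succ ∈ U)).card := by
      obtain ⟨a, ha⟩ := hodd
      obtain ⟨b, hb⟩ := ho
      split_ifs at hc <;> omega
    rw [hd _ h1, mul_zero]

/-- the function `x ↦ - f (-x)` -/
def dual {n : ℕ} (f : (Fin n → Bool) → ℝ) : (Fin n → Bool) → ℝ := fun x => - f (neg x)

lemma fourier_dual {n : ℕ} (f : (Fin n → Bool) → ℝ) (S : Finset (Fin n)) :
    fourier (dual f) S = - ((-1) ^ S.card * fourier f S) := by
  unfold fourier dual
  have h1 : ∑ x : Fin n → Bool, -f (neg x) * chi S x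
      = - ((-1) ^ S.card * ∑ x : Fin n → Bool, f x * chi S x) := by
    rw [← sum_neg_pt (fun x => -f (neg x) * chi S x), Finset.mul_sum, ← Finset.sum_neg_distrib]
    refine Finset.sum_congr rfl fun y _ => ?_
    rw [neg_neg_pt, chi_neg_pt]
    ring
  rw [h1]
  ring

lemma isBoolean_dual {n : ℕ} (f : (Fin n → Bool) → ℝ) (hf : IsBoolean f) :
    IsBoolean (dual f) := by
  intro x
  unfold dual
  rcases hf (neg x) with h | h <;> simp [h]

lemma degLE_dual {n d : ℕ} (f : (Fin n → Bool) → ℝ) (hd : DegLE f d) : DegLE (dual f) d := by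
  intro S hS
  rw [fourier_dual, hd S hS]
  simp

lemma levelOne_dual {n : ℕ} (f : (Fin n → Bool) → ℝ) : levelOne (dual f) = levelOne f := by
  unfold levelOne
  refine Finset.sum_congr rfl fun i _ => ?_
  rw [fourier_dual]
  simp

lemma fourier_dual_empty {n : ℕ} (f : (Fin n → Bool) → ℝ) :
    fourier (dual f) ∅ = - fourier f ∅ := by
  rw [fourier_dual]
  simp

end Vale.Agent.Lib.P047
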