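import Vale.Agent.Lib.P047.Inversion

namespace Vale.Agent.Lib.P047

open Finset

/-- the point `(1, ..., 1)` -/
def top (n : ℕ) : Fin n → Bool := fun _ => false

/-- the point `(-1, ..., -1)` -/
def bot (n : ℕ) : Fin n → Bool := fun _ => true

lemma chi_top {n : ℕ} (S : Finset (Fin n)) : chi S (top n) = 1 := by
  simp [chi, top, sgn]

lemma chi_bot {n : ℕ} (S : Finset (Fin n)) : chi S (bot n) = (-1) ^ S.card := by
  simp [chi, bot, sgn]

lemma sum_ite_mem_neg {n : ℕ} (S : Finset (Fin n)) (a : ℝ) :
    ∑ i : Fin n, (if i ∈ S then -a else a) = ((n : ℝ) - 2 * S.card) * a := by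
  classical
  have h : ∀ i : Fin n, (if i ∈ S then -a else a) = a - (if i ∈ S then 2 * a else 0) := by
    intro i; split_ifs <;> ring
  simp_rw [h]
  rw [Finset.sum_sub_distrib, Finset.sum_ite_mem, Finset.univ_inter]
  simp
  ring

lemma sum_singletons {n : ℕ} (c : Finset (Fin n) → ℝ) :
    ∑ S : Finset (Fin n), (if S.card = 1 then c S else 0) = ∑ i : Fin n, c {i} := by
  classical
  rw [← Finset.sum_filter]
  have h : (Finset.univ : Finset (Finset (Fin n))).filter (fun S => S.card = 1)
      = (Finset.univ : Finset (Fin n)).map ⟨fun i => ({i} : Finset (Fin n)), Finset.singleton_injective⟩ := by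
    ext S
    simp only [Finset.mem_filter, Finset.mem_univ, true_and, Finset.mem_map,
      Function.Embedding.coeFn_mk, Finset.card_eq_one]
    constructor
    · rintro ⟨a, rfl⟩; exact ⟨a, rfl⟩
    · rintro ⟨a, rfl⟩; exact ⟨a, rfl⟩
  rw [h, Finset.sum_map]
  rfl

/-- The weight of the degree-four pole functional on a character of a set of size `k`. -/
lemma pole_four_weight (k : ℕ) (hk : k ≤ 4) :
    (1 - (-1 : ℝ) ^ k) * (6 - 2 * (k : ℝ)) = if k = 1 then 8 else 0 := by
  interval_cases k <;> norm_num

/-- The pole identity for functions of degree at most four. -/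
theorem pole_identity_four {n : ℕ} (f : (Fin n → Bool) → ℝ) (hf : DegLE f 4) :
    8 * levelOne f = (6 - (n : ℝ)) * (f (top n) - f (bot n))
      + ∑ i : Fin n, (f (flip i (top n)) - f (flip i (bot n))) := by
  classical
  have hchi : ∀ S : Finset (Fin n),
      (6 - (n : ℝ)) * (chi S (top n) - chi S (bot n))
        + ∑ i : Fin n, (chi S (flip i (top n)) - chi S (flip i (bot n)))
      = (1 - (-1 : ℝ) ^ S.card) * (6 - 2 * (S.card : ℝ)) := by
    intro S
    simp_rw [chi_flip, chi_top, chi_bot]
    rw [Finset.sum_sub_distrib]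
    have e1 : ∀ i : Fin n, (if i ∈ S then -(1 : ℝ) else 1) = (if i ∈ S then -(1 : ℝ) else 1) := fun _ => rfl
    rw [sum_ite_mem_neg S 1, sum_ite_mem_neg S ((-1 : ℝ) ^ S.card)]
    ring
  have hexp : (6 - (n : ℝ)) * (f (top n) - f (bot n))
      + ∑ i : Fin n, (f (flip i (top n)) - f (flip i (bot n)))
      = ∑ S : Finset (Fin n), fourier f S *
          ((6 - (n : ℝ)) * (chi S (top n) - chi S (bot n))
            + ∑ i : Fin n, (chi S (flip i (top n)) - chi S (flip i (bot n)))) := by
    rw [fourier_inversion f (top n), fourier_inversion f (bot n)]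
    have h3 : ∀ i : Fin n, f (flip i (top n)) - f (flip i (bot n))
        = ∑ S : Finset (Fin n), fourier f S * (chi S (flip i (top n)) - chi S (flip i (bot n))) := by
      intro i
      rw [fourier_inversion f (flip i (top n)), fourier_inversion f (flip i (bot n)),
        ← Finset.sum_sub_distrib]
      refine Finset.sum_congr rfl fun S _ => by ring
    simp_rw [h3]
    rw [Finset.sum_comm, ← Finset.sum_sub_distrib, Finset.mul_sum, ← Finset.sum_add_distrib]
    refine Finset.sum_congr rfl fun S _ => ?_
    rw [← Finset.mul_sum]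
    ring
  rw [hexp]
  simp_rw [hchi]
  have hterm : ∀ S : Finset (Fin n),
      fourier f S * ((1 - (-1 : ℝ) ^ S.card) * (6 - 2 * (S.card : ℝ)))
        = if S.card = 1 then 8 * fourier f S else 0 := by
    intro S
    by_cases hS : S.card ≤ 4
    · rw [pole_four_weight S.card hS]
      split_ifs <;> ring
    · rw [hf S (by omega)]
      have : S.card ≠ 1 := by omega
      simp [this]
  simp_rw [hterm]
  rw [sum_singletons (fun S => 8 * fourier f S)]
  unfold levelOne
  rw [Finset.mul_sum]

end Vale.Agent.Lib.P047
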