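import Vale.Agent.Lib.P047.OddLift

namespace Vale.Agent.Lib.P047

open Finset

/-- If the level-one sum of every Boolean function of degree at most `d` is at most
`C * d ^ α`, then the level-one sum of every Boolean function with mean zero of degree at most
`d` is at most `d ^ α`: the constant can be removed. -/
theorem power_law (C α : ℝ)
    (hweak : ∀ (n d : ℕ) (f : (Fin n → Bool) → ℝ), IsBoolean f → DegLE f d →
      levelOne f ≤ C * (d : ℝ) ^ α)
    (n d : ℕ) (f : (Fin n → Bool) → ℝ) (hf : IsBoolean f) (hd : DegLE f d)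
    (h0 : fourier f ∅ = 0) :
    levelOne f ≤ (d : ℝ) ^ α := by
  by_contra hcon
  push Not at hcon
  have hs0 : 0 ≤ (d : ℝ) ^ α := Real.rpow_nonneg (Nat.cast_nonneg d) α
  have hdpos : 1 ≤ d := by
    by_contra hd0
    have hd0' : d = 0 := by omega
    subst hd0'
    have hz : levelOne f = 0 := by
      unfold levelOne
      refine Finset.sum_eq_zero fun i _ => hd _ ?_
      simp
    rw [hz] at hcon
    linarith
  have hspos : 0 < (d : ℝ) ^ α := Real.rpow_pos_of_pos (by exact_mod_cast hdpos) α
  have hr : 1 < levelOne f / (d : ℝ) ^ α := by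
    rw [lt_div_iff₀ hspos]
    linarith
  obtain ⟨k, hk⟩ := pow_unbounded_of_one_lt C hr
  obtain ⟨N, h, hb, hdeg, _, hl⟩ := exists_power f hf hd h0 k
  have h1 := hweak N (d ^ k) h hb hdeg
  have hsq : (((d ^ k : ℕ) : ℝ)) ^ α = ((d : ℝ) ^ α) ^ k := by
    push_cast
    rw [Real.rpow_pow_comm (Nat.cast_nonneg d)]
  rw [hl, hsq] at h1
  have h2 : (levelOne f / (d : ℝ) ^ α) ^ k ≤ C := by
    rw [div_pow, div_le_iff₀ (pow_pos hspos _)]
    exact h1
  linarith

/-- From a bound for functions with mean zero to a bound for all functions, through the odd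
lift `z * f (z * x)`. -/
lemma lift_bound (β : ℕ → ℝ)
    (hbal : ∀ (n d : ℕ) (f : (Fin n → Bool) → ℝ), IsBoolean f → DegLE f d → fourier f ∅ = 0 →
      levelOne f ≤ β d)
    (n d : ℕ) (f : (Fin n → Bool) → ℝ) (hf : IsBoolean f) (hd : DegLE f d) :
    (Odd d → levelOne f + |fourier f ∅| ≤ β d) ∧ levelOne f + |fourier f ∅| ≤ β (d + 1) := by
  constructor
  · intro hodd
    have h1 := hbal (n + 1) d (oddLift f) (isBoolean_oddLift f hf)
      (degLE_oddLift_of_odd f hd hodd) (fourier_oddLift_empty f)
    have h2 := hbal (n + 1) d (oddLift (dual f))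
      (isBoolean_oddLift _ (isBoolean_dual f hf))
      (degLE_oddLift_of_odd _ (degLE_dual f hd) hodd) (fourier_oddLift_empty _)
    rw [levelOne_oddLift] at h1 h2
    rw [levelOne_dual, fourier_dual_empty] at h2
    rcases abs_cases (fourier f ∅) with ⟨h, _⟩ | ⟨h, _⟩ <;> rw [h] <;> linarith
  · have h1 := hbal (n + 1) (d + 1) (oddLift f) (isBoolean_oddLift f hf)
      (degLE_oddLift f hd) (fourier_oddLift_empty f)
    have h2 := hbal (n + 1) (d + 1) (oddLift (dual f))
      (isBoolean_oddLift _ (isBoolean_dual f hf))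
      (degLE_oddLift _ (degLE_dual f hd)) (fourier_oddLift_empty _)
    rw [levelOne_oddLift] at h1 h2
    rw [levelOne_dual, fourier_dual_empty] at h2
    rcases abs_cases (fourier f ∅) with ⟨h, _⟩ | ⟨h, _⟩ <;> rw [h] <;> linarith

/-- If for every exponent `α > 1/2` the level-one sum of every Boolean function of degree at
most `d` is at most `C * d ^ α` (with `C` depending on `α`), then the level-one sum of every
Boolean function with mean zero of degree at most `d` is at most `sqrt d`. -/
theorem sqrt_of_subpower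
    (hweak : ∀ α : ℝ, 1 / 2 < α → ∃ C : ℝ, ∀ (n d : ℕ) (f : (Fin n → Bool) → ℝ),
      IsBoolean f → DegLE f d → levelOne f ≤ C * (d : ℝ) ^ α)
    (n d : ℕ) (f : (Fin n → Bool) → ℝ) (hf : IsBoolean f) (hd : DegLE f d)
    (h0 : fourier f ∅ = 0) :
    levelOne f ≤ Real.sqrt d := by
  by_contra hcon
  push Not at hcon
  have hs0 := Real.sqrt_nonneg (d : ℝ)
  have hw : 0 < levelOne f := lt_of_le_of_lt hs0 hcon
  rcases Nat.lt_or_ge d 2 with hlt | hge
  · obtain ⟨C, hC⟩ := hweak 1 (by norm_num)
    have h1 := power_law C 1 hC n d f hf hd h0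
    rw [Real.rpow_one] at h1
    interval_cases d
    · simp at hcon h1
      linarith
    · simp at hcon h1
      linarith
  · have hd1 : (1 : ℝ) < d := by exact_mod_cast hge
    have hmpos : 0 < (levelOne f + Real.sqrt d) / 2 := by linarith
    have hpow : (d : ℝ) ^ Real.logb d ((levelOne f + Real.sqrt d) / 2)
        = (levelOne f + Real.sqrt d) / 2 :=
      Real.rpow_logb (by linarith) (ne_of_gt hd1) hmpos
    have hα : 1 / 2 < Real.logb d ((levelOne f + Real.sqrt d) / 2) := by
      rw [← Real.rpow_lt_rpow_left_iff hd1, hpow, ← Real.sqrt_eq_rpow]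
      linarith
    obtain ⟨C, hC⟩ := hweak _ hα
    have h1 := power_law C _ hC n d f hf hd h0
    rw [hpow] at h1
    linarith

end Vale.Agent.Lib.P047
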