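import Vale.Agent.Lib.P047.Wht

namespace Vale.Agent.Lib.P047

open Finset

lemma chi_cons {n : ℕ} (S : Finset (Fin (n + 1))) (b : Bool) (y : Fin n → Bool) :
    chi S (Fin.cons b y : Fin (n + 1) → Bool)
      = (if (0 : Fin (n + 1)) ∈ S then sgn b else 1)
        * chi (Finset.univ.filter (fun i : Fin n => i.succ ∈ S)) y := by
  classical
  unfold chi
  have h1 : ∏ i ∈ S, sgn ((Fin.cons b y : Fin (n + 1) → Bool) i)
      = ∏ i : Fin (n + 1), (if i ∈ S then sgn ((Fin.cons b y : Fin (n + 1) → Bool) i) else 1) := by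
    rw [Finset.prod_ite_mem, Finset.univ_inter]
  have h2 : ∏ i ∈ Finset.univ.filter (fun i : Fin n => i.succ ∈ S), sgn (y i)
      = ∏ i : Fin n, (if i.succ ∈ S then sgn (y i) else 1) := by
    rw [Finset.prod_filter]
  rw [h1, h2, Fin.prod_univ_succ]
  simp only [Fin.cons_zero, Fin.cons_succ]

lemma sum_cube_succ {n : ℕ} (F : (Fin (n + 1) → Bool) → ℝ) :
    ∑ x : Fin (n + 1) → Bool, F x
      = ∑ y : Fin n → Bool, (F (Fin.cons false y) + F (Fin.cons true y)) := by
  rw [← (Fin.consEquiv (fun _ : Fin (n + 1) => Bool)).sum_comp, Fintype.sum_prod_type,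
    Fintype.sum_bool, ← Finset.sum_add_distrib]
  refine Finset.sum_congr rfl fun y _ => ?_
  have e1 : (Fin.consEquiv fun _ : Fin (n + 1) => Bool) (true, y) = Fin.cons true y := rfl
  have e2 : (Fin.consEquiv fun _ : Fin (n + 1) => Bool) (false, y) = Fin.cons false y := rfl
  rw [e1, e2, add_comm]

namespace Tr

/-- the function on the cube given by a table: the value at `x` is the entry at the string
`x 0, x 1, ...` -/
noncomputable def fn (n : ℕ) (t : Tr) : (Fin n → Bool) → ℝ :=
  fun x => ((get t (List.ofFn x) : ℤ) : ℝ)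

lemma fn_cons_false (n : ℕ) (l r : Tr) (y : Fin n → Bool) :
    fn (n + 1) (node l r) (Fin.cons false y) = fn n l y := by
  simp [fn, List.ofFn_succ, get]

lemma fn_cons_true (n : ℕ) (l r : Tr) (y : Fin n → Bool) :
    fn (n + 1) (node l r) (Fin.cons true y) = fn n r y := by
  simp [fn, List.ofFn_succ, get]

lemma sum_fn_mul_chi : ∀ (n : ℕ) (t : Tr), perfect n t = true → ∀ S : Finset (Fin n),
    ∑ x : Fin n → Bool, fn n t x * chi S x
      = ((get (wht t) (List.ofFn fun i => decide (i ∈ S)) : ℤ) : ℝ)
  | 0, leaf p m, _, S => by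
      obtain rfl : S = ∅ := Finset.eq_empty_of_isEmpty S
      simp [fn, get, wht_leaf, chi]
  | 0, node l r, h, _ => by simp [perfect] at h
  | (n + 1), leaf p m, h, _ => by simp [perfect] at h
  | (n + 1), node l r, h, S => by
      simp only [perfect, Bool.and_eq_true] at h
      have hl := sum_fn_mul_chi n l h.1 (Finset.univ.filter fun i : Fin n => i.succ ∈ S)
      have hr := sum_fn_mul_chi n r h.2 (Finset.univ.filter fun i : Fin n => i.succ ∈ S)
      have hpath : (List.ofFn fun i : Fin (n + 1) => decide (i ∈ S))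
          = decide ((0 : Fin (n + 1)) ∈ S) :: List.ofFn (fun i : Fin n =>
              decide (i ∈ Finset.univ.filter fun i : Fin n => i.succ ∈ S)) := by
        rw [List.ofFn_succ]
        simp
      rw [sum_cube_succ, hpath, wht_node]
      simp only [fn_cons_false, fn_cons_true, chi_cons]
      by_cases h0 : (0 : Fin (n + 1)) ∈ S
      · simp only [h0, if_true, decide_true, get, cond_true, get_sub]
        push_cast
        rw [← hl, ← hr, ← Finset.sum_sub_distrib]
        refine Finset.sum_congr rfl fun y _ => ?_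
        simp only [sgn]
        simp
        ring
      · simp only [h0, if_false, decide_false, get, cond_false, get_add]
        push_cast
        rw [← hl, ← hr, ← Finset.sum_add_distrib]
        refine Finset.sum_congr rfl fun y _ => ?_
        ring

lemma fourier_fn (n : ℕ) (t : Tr) (h : perfect n t = true) (S : Finset (Fin n)) :
    fourier (fn n t) S
      = ((get (wht t) (List.ofFn fun i => decide (i ∈ S)) : ℤ) : ℝ) / 2 ^ n := by
  unfold fourier
  rw [sum_fn_mul_chi n t h S]

lemma isBoolean_fn (n : ℕ) (t : Tr) (h : allPM t = true) : IsBoolean (fn n t) := by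
  intro x
  rcases get_of_allPM t (List.ofFn x) h with h1 | h1
  · left; simp [fn, h1]
  · right; simp [fn, h1]

lemma count_ofFn_true : ∀ (n : ℕ) (g : Fin n → Bool),
    (List.ofFn g).count true = (Finset.univ.filter fun i => g i = true).card
  | 0, g => by simp
  | (n + 1), g => by
      rw [List.ofFn_succ, Fin.card_filter_univ_succ, List.count_cons,
        count_ofFn_true n (fun i => g i.succ)]
      by_cases h : g 0 = true <;> simp [h]

lemma degLE_fn (n d : ℕ) (t : Tr) (h1 : perfect n t = true) (h3 : perfect n (wht t) = true)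
    (h4 : degOK d (wht t) 0 = true) : DegLE (fn n t) d := by
  intro S hS
  rw [fourier_fn n t h1 S]
  have hc : (List.ofFn fun i : Fin n => decide (i ∈ S)).count true = S.card := by
    rw [count_ofFn_true]
    congr 1
    ext i
    simp
  have hz := get_eq_zero_of_degOK d n (wht t) 0 (List.ofFn fun i : Fin n => decide (i ∈ S)) h3
    (by simp) h4 (by rw [hc]; omega)
  rw [hz]
  simp

lemma levelOne_fn (n : ℕ) (t : Tr) (h1 : perfect n t = true) :
    levelOne (fn n t) = ((lvl n (wht t) : ℤ) : ℝ) / 2 ^ n := by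
  unfold levelOne lvl
  rw [← Fin.sum_univ_def, Int.cast_sum, Finset.sum_div]
  refine Finset.sum_congr rfl fun i _ => ?_
  rw [fourier_fn n t h1 {i}]
  simp only [Finset.mem_singleton]

lemma fourier_empty_fn (n : ℕ) (t : Tr) (h1 : perfect n t = true) :
    fourier (fn n t) ∅ = ((get (wht t) (List.replicate n false) : ℤ) : ℝ) / 2 ^ n := by
  rw [fourier_fn n t h1 ∅]
  simp [List.ofFn_const]

lemma not_degLE_fn (n d : ℕ) (t : Tr) (g : Fin n → Bool) (h1 : perfect n t = true)
    (h5 : get (wht t) (List.ofFn g) ≠ 0)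
    (h6 : d < (Finset.univ.filter fun i => g i = true).card) : ¬ DegLE (fn n t) d := by
  intro hdeg
  have h := hdeg (Finset.univ.filter fun i => g i = true) h6
  rw [fourier_fn n t h1] at h
  have hp : (List.ofFn fun i : Fin n => decide (i ∈ Finset.univ.filter fun i => g i = true))
      = List.ofFn g := by
    congr 1
    funext i
    simp
  rw [hp] at h
  have h2 : ((2 : ℝ) ^ n) ≠ 0 := by positivity
  rcases div_eq_zero_iff.mp h with h | h
  · exact h5 (by exact_mod_cast h)
  · exact h2 h

/-- A table whose Walsh-Hadamard transform passes the checks gives a Boolean function of degree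
exactly `d + 1` with mean zero and with the stated sum of level-one coefficients. -/
theorem exists_of_table_exact (n d : ℕ) (w : ℤ) (t : Tr) (g : Fin n → Bool)
    (h1 : (perfect n t && allPM t) = true)
    (h2 : (perfect n (wht t) && degOK (d + 1) (wht t) 0) = true)
    (h3 : lvl n (wht t) = w)
    (h4 : get (wht t) (List.replicate n false) = 0)
    (h5 : get (wht t) (List.ofFn g) ≠ 0)
    (h6 : d < (Finset.univ.filter fun i => g i = true).card) :
    ∃ f : (Fin n → Bool) → ℝ, IsBoolean f ∧ DegLE f (d + 1) ∧ ¬ DegLE f d ∧ fourier f ∅ = 0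
      ∧ levelOne f = (w : ℝ) / 2 ^ n := by
  simp only [Bool.and_eq_true] at h1 h2
  refine ⟨fn n t, isBoolean_fn n t h1.2, degLE_fn n (d + 1) t h1.1 h2.1 h2.2,
    not_degLE_fn n d t g h1.1 h5 h6, ?_, ?_⟩
  · rw [fourier_empty_fn n t h1.1, h4]; simp
  · rw [levelOne_fn n t h1.1, h3]

/-- A table whose Walsh-Hadamard transform passes the checks gives a Boolean function of degree
at most `d` with mean zero and with the stated sum of level-one coefficients. -/
theorem exists_of_table (n d : ℕ) (w : ℤ) (t : Tr)
    (h1 : (perfect n t && allPM t) = true)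
    (h2 : (perfect n (wht t) && degOK d (wht t) 0) = true)
    (h3 : lvl n (wht t) = w)
    (h4 : get (wht t) (List.replicate n false) = 0) :
    ∃ f : (Fin n → Bool) → ℝ, IsBoolean f ∧ DegLE f d ∧ fourier f ∅ = 0
      ∧ levelOne f = (w : ℝ) / 2 ^ n := by
  simp only [Bool.and_eq_true] at h1 h2
  refine ⟨fn n t, isBoolean_fn n t h1.2, degLE_fn n d t h1.1 h2.1 h2.2, ?_, ?_⟩
  · rw [fourier_empty_fn n t h1.1, h4]; simp
  · rw [levelOne_fn n t h1.1, h3]

end Tr

end Vale.Agent.Lib.P047
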