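import Vale.Agent.Lib.P047.Defs
import Vale.Agent.Lib.P047.helper64.OddCubic
import Vale.Agent.Lib.P047.helper64.Example7

/-!
# P047: transport between the two encodings of the cube

`Fin n → Bool` (false is `1`, true is `-1`) and `Fin n → ℤˣ`.
-/

namespace Vale.Agent.Lib.P047

open Finset

/-- The unit of `ℤ` coded by a bit: `false` is `1`, `true` is `-1`. -/
def toU (b : Bool) : ℤˣ := if b then -1 else 1

/-- The bit coding a unit of `ℤ`. -/
def ofU (u : ℤˣ) : Bool := decide (u = -1)

lemma ofU_toU (b : Bool) : ofU (toU b) = b := by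
  cases b <;> simp [ofU, toU]

lemma toU_ofU (u : ℤˣ) : toU (ofU u) = u := by
  rcases Int.units_eq_one_or u with h | h <;> simp [ofU, toU, h]

/-- The equivalence of the two codings of a point of the cube. -/
def ptEquiv (n : ℕ) : (Fin n → Bool) ≃ (Fin n → ℤˣ) where
  toFun x := fun i => toU (x i)
  invFun y := fun i => ofU (y i)
  left_inv x := by
    funext i
    exact ofU_toU (x i)
  right_inv y := by
    funext i
    exact toU_ofU (y i)

lemma sgn_eq_toU (b : Bool) : sgn b = (((toU b : ℤˣ) : ℤ) : ℝ) := by
  cases b <;> simp [sgn, toU]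

/-- Fourier coefficients agree under the change of coding. -/
lemma fourierCoeff_transport {n : ℕ} (g : (Fin n → ℤˣ) → ℝ) (S : Finset (Fin n)) :
    fourier (fun x => g (ptEquiv n x)) S = helper64.fourierCoeff g S := by
  unfold fourier helper64.fourierCoeff
  congr 1
  refine Fintype.sum_equiv (ptEquiv n) _ _ fun x => ?_
  unfold chi
  congr 1
  refine Finset.prod_congr rfl fun i _ => ?_
  rw [sgn_eq_toU]
  rfl

lemma fourier_eq_fourierCoeff {n : ℕ} (f : (Fin n → Bool) → ℝ) (S : Finset (Fin n)) :
    fourier f S = helper64.fourierCoeff (fun y => f ((ptEquiv n).symm y)) S := by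
  rw [← fourierCoeff_transport]
  simp

/-- A Boolean function all of whose Fourier coefficients on sets of odd size at least five
vanish has sum of absolute level-one coefficients at most `7/4`. -/
theorem odd_cubic_bound_bool {n : ℕ} (f : (Fin n → Bool) → ℝ) (hf : IsBoolean f)
    (hodd : ∀ S : Finset (Fin n), 4 < S.card → Odd S.card → fourier f S = 0) :
    ∑ i, |fourier f {i}| ≤ 7 / 4 := by
  have h := helper64.odd_cubic_bound (fun y => f ((ptEquiv n).symm y))
    (fun y => hf _) (fun S h4 ho => by rw [← fourier_eq_fourierCoeff]; exact hodd S h4 ho)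
  simp_rw [← fourier_eq_fourierCoeff] at h
  exact h

/-- A Boolean function of degree at most four on seven variables with level-one sum `7/4`. -/
theorem exists_seven :
    ∃ f : (Fin 7 → Bool) → ℝ, IsBoolean f ∧ DegLE f 4 ∧ levelOne f = 7 / 4 := by
  refine ⟨fun x => helper64.ex7 (ptEquiv 7 x), fun x => helper64.ex7_boolean _, ?_, ?_⟩
  · intro S hS
    rw [fourierCoeff_transport]
    exact helper64.ex7_degree S hS
  · unfold levelOne
    simp_rw [fourierCoeff_transport, helper64.ex7_level_one]
    simp
    norm_num

end Vale.Agent.Lib.P047
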