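import Vale.Agent.Lib.P047.Basic

namespace Vale.Agent.Lib.P047

open Finset

/-- A binary tree whose leaves carry two natural numbers `p`, `m`, standing for the integer
`p - m`: a table of integers indexed by strings of bits. -/
inductive Tr where
  | leaf (p m : ℕ) : Tr
  | node (l r : Tr) : Tr

namespace Tr

/-- the entry at a string of bits: `false` goes to the left, `true` to the right -/
def get : Tr → List Bool → ℤ
  | leaf p m, _ => (p : ℤ) - (m : ℤ)
  | node l _, [] => get l []
  | node l r, b :: q => cond b (get r q) (get l q)

/-- entrywise sum (written with the recursor so that the kernel evaluates it quickly) -/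
noncomputable def add (s : Tr) : Tr → Tr :=
  Tr.rec (motive := fun _ => Tr → Tr)
    (fun p m t => Tr.rec (motive := fun _ => Tr)
      (fun p' m' => leaf (Nat.add p p') (Nat.add m m')) (fun _ _ il ir => node il ir) t)
    (fun _ _ ihl ihr t => Tr.rec (motive := fun _ => Tr)
      (fun p' m' => node (ihl (leaf p' m')) (ihr (leaf p' m')))
      (fun l' r' _ _ => node (ihl l') (ihr r')) t) s

/-- entrywise difference -/
noncomputable def sub (s : Tr) : Tr → Tr :=
  Tr.rec (motive := fun _ => Tr → Tr)
    (fun p m t => Tr.rec (motive := fun _ => Tr)
      (fun p' m' => leaf (Nat.add p m') (Nat.add m p')) (fun _ _ il ir => node il ir) t)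
    (fun _ _ ihl ihr t => Tr.rec (motive := fun _ => Tr)
      (fun p' m' => node (ihl (leaf p' m')) (ihr (leaf p' m')))
      (fun l' r' _ _ => node (ihl l') (ihr r')) t) s

/-- the Walsh-Hadamard transform of a table -/
noncomputable def wht (t : Tr) : Tr :=
  Tr.rec (motive := fun _ => Tr) (fun p m => leaf p m)
    (fun _ _ il ir => node (add il ir) (sub il ir)) t

/-- the tree is a complete binary tree of depth `n` -/
def perfect : ℕ → Tr → Bool
  | 0, leaf _ _ => true
  | (n + 1), node l r => perfect n l && perfect n r
  | _, _ => false

/-- every entry is `1` or `-1` -/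
def allPM : Tr → Bool
  | leaf p m => Nat.beq (Nat.add p m) 1
  | node l r => allPM l && allPM r

/-- every entry whose string of bits has more than `d` bits `true` vanishes
(`k` is the number of bits `true` read so far) -/
def degOK (d : ℕ) : Tr → ℕ → Bool
  | leaf p m, k => Nat.beq p m || Nat.ble k d
  | node l r, k => degOK d l k && degOK d r (k + 1)

/-- the table of signs coded by the lowest `2 ^ k` binary digits of `N`:
digit `0` is the sign `1`, digit `1` is the sign `-1` -/
def build : ℕ → ℕ → Tr
  | 0, N => leaf (Nat.sub 1 N) N
  | (k + 1), N => node (build k (N % 2 ^ 2 ^ k)) (build k (N / 2 ^ 2 ^ k))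

/-- the sum of the entries at the strings with exactly one bit `true` -/
def lvl (n : ℕ) (u : Tr) : ℤ :=
  ((List.finRange n).map (fun i => get u (List.ofFn fun j : Fin n => decide (j = i)))).sum

lemma add_leaf_leaf (p m p' m' : ℕ) : add (leaf p m) (leaf p' m') = leaf (p + p') (m + m') := rfl
lemma add_leaf_node (p m : ℕ) (l r : Tr) :
    add (leaf p m) (node l r) = node (add (leaf p m) l) (add (leaf p m) r) := rfl
lemma add_node_leaf (l r : Tr) (p m : ℕ) :
    add (node l r) (leaf p m) = node (add l (leaf p m)) (add r (leaf p m)) := rfl
lemma add_node_node (l r l' r' : Tr) :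
    add (node l r) (node l' r') = node (add l l') (add r r') := rfl

lemma sub_leaf_leaf (p m p' m' : ℕ) : sub (leaf p m) (leaf p' m') = leaf (p + m') (m + p') := rfl
lemma sub_leaf_node (p m : ℕ) (l r : Tr) :
    sub (leaf p m) (node l r) = node (sub (leaf p m) l) (sub (leaf p m) r) := rfl
lemma sub_node_leaf (l r : Tr) (p m : ℕ) :
    sub (node l r) (leaf p m) = node (sub l (leaf p m)) (sub r (leaf p m)) := rfl
lemma sub_node_node (l r l' r' : Tr) :
    sub (node l r) (node l' r') = node (sub l l') (sub r r') := rfl

lemma wht_leaf (p m : ℕ) : wht (leaf p m) = leaf p m := rfl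
lemma wht_node (l r : Tr) : wht (node l r) = node (add (wht l) (wht r)) (sub (wht l) (wht r)) := rfl

lemma get_add_leaf (p m : ℕ) : ∀ (t : Tr) (q : List Bool),
    get (add (leaf p m) t) q = ((p : ℤ) - (m : ℤ)) + get t q
  | leaf p' m', q => by rw [add_leaf_leaf]; simp only [get]; push_cast; ring
  | node l r, [] => by rw [add_leaf_node]; simp only [get]; exact get_add_leaf p m l []
  | node l r, c :: q => by
      rw [add_leaf_node]
      cases c
      · simp only [get, cond_false]; exact get_add_leaf p m l q
      · simp only [get, cond_true]; exact get_add_leaf p m r q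

lemma get_add : ∀ (s t : Tr) (q : List Bool), get (add s t) q = get s q + get t q
  | leaf p m, t, q => by rw [get_add_leaf]; simp only [get]
  | node l r, leaf p m, [] => by
      rw [add_node_leaf]; simp only [get]; rw [get_add l (leaf p m) []]; simp only [get]
  | node l r, leaf p m, c :: q => by
      rw [add_node_leaf]
      cases c
      · simp only [get, cond_false]; rw [get_add l (leaf p m) q]; simp only [get]
      · simp only [get, cond_true]; rw [get_add r (leaf p m) q]; simp only [get]
  | node l r, node l' r', [] => by
      rw [add_node_node]; simp only [get]; exact get_add l l' []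
  | node l r, node l' r', c :: q => by
      rw [add_node_node]
      cases c
      · simp only [get, cond_false]; exact get_add l l' q
      · simp only [get, cond_true]; exact get_add r r' q

lemma get_sub_leaf (p m : ℕ) : ∀ (t : Tr) (q : List Bool),
    get (sub (leaf p m) t) q = ((p : ℤ) - (m : ℤ)) - get t q
  | leaf p' m', q => by rw [sub_leaf_leaf]; simp only [get]; push_cast; ring
  | node l r, [] => by rw [sub_leaf_node]; simp only [get]; exact get_sub_leaf p m l []
  | node l r, c :: q => by
      rw [sub_leaf_node]
      cases c
      · simp only [get, cond_false]; exact get_sub_leaf p m l q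
      · simp only [get, cond_true]; exact get_sub_leaf p m r q

lemma get_sub : ∀ (s t : Tr) (q : List Bool), get (sub s t) q = get s q - get t q
  | leaf p m, t, q => by rw [get_sub_leaf]; simp only [get]
  | node l r, leaf p m, [] => by
      rw [sub_node_leaf]; simp only [get]; rw [get_sub l (leaf p m) []]; simp only [get]
  | node l r, leaf p m, c :: q => by
      rw [sub_node_leaf]
      cases c
      · simp only [get, cond_false]; rw [get_sub l (leaf p m) q]; simp only [get]
      · simp only [get, cond_true]; rw [get_sub r (leaf p m) q]; simp only [get]
  | node l r, node l' r', [] => by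
      rw [sub_node_node]; simp only [get]; exact get_sub l l' []
  | node l r, node l' r', c :: q => by
      rw [sub_node_node]
      cases c
      · simp only [get, cond_false]; exact get_sub l l' q
      · simp only [get, cond_true]; exact get_sub r r' q

lemma get_of_allPM : ∀ (t : Tr) (q : List Bool), allPM t = true → get t q = 1 ∨ get t q = -1
  | leaf p m, q, h => by
      have h' : p + m = 1 := by simpa [allPM] using h
      simp only [get]
      omega
  | node l r, [], h => by
      simp only [allPM, Bool.and_eq_true] at h
      simpa [get] using get_of_allPM l [] h.1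
  | node l r, b :: q, h => by
      simp only [allPM, Bool.and_eq_true] at h
      cases b
      · simpa [get] using get_of_allPM l q h.1
      · simpa [get] using get_of_allPM r q h.2

lemma get_eq_zero_of_degOK (d : ℕ) : ∀ (n : ℕ) (u : Tr) (k : ℕ) (q : List Bool),
    perfect n u = true → q.length = n → degOK d u k = true → d < k + q.count true → get u q = 0
  | 0, leaf p m, k, q, _, hq, h, hd => by
      have hq' : q = [] := List.length_eq_zero_iff.mp hq
      subst hq'
      simp only [degOK, Bool.or_eq_true, Nat.ble_eq] at h
      simp only [List.count_nil, add_zero] at hd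
      rcases h with h | h
      · have h' : p = m := Nat.eq_of_beq_eq_true h
        simp only [get]; omega
      · omega
  | 0, node l r, k, q, hu, _, _, _ => by simp [perfect] at hu
  | (n + 1), leaf p m, k, q, hu, _, _, _ => by simp [perfect] at hu
  | (n + 1), node l r, k, [], _, hq, _, _ => by simp at hq
  | (n + 1), node l r, k, b :: q, hu, hq, h, hd => by
      simp only [perfect, Bool.and_eq_true] at hu
      simp only [degOK, Bool.and_eq_true] at h
      have hq' : q.length = n := by simpa using hq
      cases b
      · have hd' : d < k + q.count true := by simpa using hd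
        simpa [get] using get_eq_zero_of_degOK d n l k q hu.1 hq' h.1 hd'
      · have hd' : d < (k + 1) + q.count true := by
          simp only [List.count_cons_self] at hd
          omega
        simpa [get] using get_eq_zero_of_degOK d n r (k + 1) q hu.2 hq' h.2 hd'

end Tr

end Vale.Agent.Lib.P047
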